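import Vale.Agent.P237.Petty.Cor.Top.Cert

/-!
# P237: the cell from forty-eight to one, for `100 ≤ p + 2`
-/

namespace Vale.Agent.P237.Petty.Cor.Top

open Set P100.Bernstein

/-- The cell from forty-eight to one, for `100 ≤ p + 2`. -/
def high100 : Data where
  geo := geo100
  th := 44593 / 10000
  g := 3052 / 10000
  a := 6239 / 10000
  l0 := -9446 / 1000
  l1 := 14231 / 1000
  v1 := 27 / 25
  ev := 3426 / 1000
  r00 := 391 / 100
  r10 := -3434 / 10000
  r20 := 2087 / 1000
  r30 := 8955 / 10000
  r21 := 0
  r31 := 0
  r32 := 108
  r34 := 692

theorem high100_leadA : certify true (leadA ofRat high100 (.var 0) (.var 1)) (boxA high100) .leaf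
  = true := by
  decide +kernel

theorem high100_leadB : certify true (leadB ofRat high100 (.var 0) (.var 1)) (boxB high100) .leaf
  = true := by
  decide +kernel

theorem high100_nearA (i : Side) :
    certify false (nearA ofRat high100 (slopeE high100 i) (.var 0) (.var 1)) (boxA high100)
      (.split 0 (.split 1 (.split 0 (.split 1 (.split 0 .leaf .leaf) (.split 0 (.split 1 .leaf
        (.split 0 .leaf .leaf)) .leaf)) .leaf) (.split 0 (.split 1 (.split 0 (.split 1 (.split 0
        .leaf .leaf) (.split 0 .leaf .leaf)) .leaf) (.split 0 (.split 1 (.split 0 .leaf .leaf)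
        (.split 0 .leaf .leaf)) .leaf)) .leaf)) .leaf) =
      true := by
  cases i <;> decide +kernel

theorem high100_nearB (i : Side) :
    certify false (nearB ofRat high100 (slopeE high100 i) (.var 0) (.var 1)) (boxB high100)
      (.split 0 .leaf .leaf) =
      true := by
  cases i <;> decide +kernel

theorem high100_farA (i : Side) :
    certify false (farA ofRat high100 (slopeE high100 i) (.var 0) (.var 1) (.var 2)) (boxFarA
      high100)
      (.split 0 (.split 2 .leaf (.split 1 .leaf (.split 0 .leaf .leaf))) .leaf) =
      true := by
  cases i <;> decide +kernel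

theorem high100_farB (i : Side) :
    certify false (farB ofRat high100 (slopeE high100 i) (.var 0) (.var 1) (.var 2)) (boxFarB
      high100)
      .leaf =
      true := by
  cases i <;> decide +kernel

theorem high100_arcs :
    (arcExprs high100).all (fun e => certify false e [upTo high100.geo.z1] .leaf) = true := by
  decide +kernel

theorem good_high100 : Good high100 where
  th_nonneg := by norm_num [high100]
  g_pos := by norm_num [high100]
  g_le := by norm_num [high100]
  a_pos := by norm_num [high100]
  v1_gt := by norm_num [high100]
  v1_le := by norm_num [high100]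
  m0_ge := by norm_num [high100, geo100]
  z1_pos := by norm_num [high100, geo100]
  z1_lt := by norm_num [high100, geo100]
  xs_pos := by norm_num [high100, geo100]
  q_nonneg := by norm_num [high100, geo100]
  deg_ge := by norm_num [high100, geo100]
  hk_ge := by norm_num [high100, geo100]
  qs_ge := by norm_num [high100, geo100]
  rs_ge := by norm_num [high100, geo100]
  arcs := arcs_of_certify high100_arcs
  side_le := by norm_num [high100, geo100, Data.side]
  gap := by norm_num [high100, geo100]
  r00 := by norm_num [high100]
  r10 := by norm_num [high100]
  r20 := by norm_num [high100]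
  disc := by norm_num [high100]
  r30 := by norm_num [high100]
  r21 := by norm_num [high100]
  r31 := by norm_num [high100]
  r32 := by norm_num [high100]
  r34 := by norm_num [high100]
  leadA_pos := leadA_of_certify high100_leadA
  leadB_pos := leadB_of_certify high100_leadB
  nearA_nonneg := nearA_of_certify high100_nearA
  nearB_nonneg := nearB_of_certify high100_nearB
  farA_nonneg := farA_of_certify high100_farA
  farB_nonneg := farB_of_certify high100_farB

theorem exp_le_high100 : Real.exp 1 * (high100.geo.hk : ℝ) ≤ (high100.ev : ℝ) := by
  refine le_trans (mul_le_mul_of_nonneg_right Real.exp_one_lt_d9.le (by norm_num [high100,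
    geo100])) ?_
  norm_num [high100, geo100]

/-- The cell from forty-eight to one. -/
theorem corCell_high100 {p : ℕ} (hp : 98 ≤ p) :
    CorCell p (48 / ((p : ℝ) + 2)) (1) := by
  have hp' : (98 : ℝ) ≤ p := by exact_mod_cast hp
  refine corCell_of_data good_high100 (by norm_num [high100, geo100]; linarith) (by norm_num)
    exp_le_high100 ?_
  have h0 : 0 ≤ tailConst high100 := tailConst_nonneg good_high100
  have h1 : tailConst high100 ≤ 65 := by norm_num [tailConst, devConst, high100, geo100, Data.G,
    abs_of_neg]
  have h : tailMoment high100 ≤ 1130 / 100000 := by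
    norm_num [tailMoment, tailProd, high100, geo100, Finset.prod_range_succ]
  have h2 : tailConst high100 * tailMoment high100 ≤ 65 * (1130 / 100000) :=
    (mul_le_mul_of_nonneg_left h h0).trans (mul_le_mul_of_nonneg_right h1 (by norm_num))
  norm_num [high100, geo100] at h2 ⊢
  linarith

end Vale.Agent.P237.Petty.Cor.Top
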