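import Vale.Agent.P237.Petty.Cor.Top.Cert

/-!
# P237: the cell from sixteen to 48 / 100, for `100 ≤ p + 2`
-/

namespace Vale.Agent.P237.Petty.Cor.Top

open Set P100.Bernstein

/-- The cell from sixteen to 48 / 100, for `100 ≤ p + 2`. -/
def low100 : Data where
  geo := geo100
  th := 15614 / 10000
  g := 4603 / 10000
  a := 5476 / 10000
  l0 := -24263 / 10000
  l1 := 62029 / 10000
  v1 := 41 / 40
  ev := 2037 / 1000
  r00 := 68 / 100
  r10 := -301 / 100
  r20 := 3616 / 1000
  r30 := 12 / 1000
  r21 := 62 / 10
  r31 := 0
  r32 := 65 / 10
  r34 := 99

theorem low100_leadA : certify true (leadA ofRat low100 (.var 0) (.var 1)) (boxA low100) .leaf =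
  true := by
  decide +kernel

theorem low100_leadB : certify true (leadB ofRat low100 (.var 0) (.var 1)) (boxB low100) .leaf =
  true := by
  decide +kernel

theorem low100_nearA (i : Side) :
    certify false (nearA ofRat low100 (slopeE low100 i) (.var 0) (.var 1)) (boxA low100)
      (.split 0 (.split 1 (.split 0 (.split 1 (.split 0 (.split 1 (.split 0 .leaf .leaf) (.split
        0 .leaf .leaf)) .leaf) (.split 0 (.split 1 (.split 0 .leaf .leaf) (.split 0 .leaf .leaf))
        .leaf)) .leaf) (.split 0 (.split 1 (.split 0 .leaf .leaf) (.split 0 .leaf .leaf)) .leaf))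
        .leaf) =
      true := by
  cases i <;> decide +kernel

theorem low100_nearB (i : Side) :
    certify false (nearB ofRat low100 (slopeE low100 i) (.var 0) (.var 1)) (boxB low100)
      .leaf =
      true := by
  cases i <;> decide +kernel

theorem low100_farA (i : Side) :
    certify false (farA ofRat low100 (slopeE low100 i) (.var 0) (.var 1) (.var 2)) (boxFarA
      low100)
      (.split 0 (.split 2 .leaf (.split 1 .leaf (.split 0 .leaf .leaf))) .leaf) =
      true := by
  cases i <;> decide +kernel

theorem low100_farB (i : Side) :
    certify false (farB ofRat low100 (slopeE low100 i) (.var 0) (.var 1) (.var 2)) (boxFarB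
      low100)
      .leaf =
      true := by
  cases i <;> decide +kernel

theorem low100_arcs :
    (arcExprs low100).all (fun e => certify false e [upTo low100.geo.z1] .leaf) = true := by
  decide +kernel

theorem good_low100 : Good low100 where
  th_nonneg := by norm_num [low100]
  g_pos := by norm_num [low100]
  g_le := by norm_num [low100]
  a_pos := by norm_num [low100]
  v1_gt := by norm_num [low100]
  v1_le := by norm_num [low100]
  m0_ge := by norm_num [low100, geo100]
  z1_pos := by norm_num [low100, geo100]
  z1_lt := by norm_num [low100, geo100]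
  xs_pos := by norm_num [low100, geo100]
  q_nonneg := by norm_num [low100, geo100]
  deg_ge := by norm_num [low100, geo100]
  hk_ge := by norm_num [low100, geo100]
  qs_ge := by norm_num [low100, geo100]
  rs_ge := by norm_num [low100, geo100]
  arcs := arcs_of_certify low100_arcs
  side_le := by norm_num [low100, geo100, Data.side]
  gap := by norm_num [low100, geo100]
  r00 := by norm_num [low100]
  r10 := by norm_num [low100]
  r20 := by norm_num [low100]
  disc := by norm_num [low100]
  r30 := by norm_num [low100]
  r21 := by norm_num [low100]
  r31 := by norm_num [low100]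
  r32 := by norm_num [low100]
  r34 := by norm_num [low100]
  leadA_pos := leadA_of_certify low100_leadA
  leadB_pos := leadB_of_certify low100_leadB
  nearA_nonneg := nearA_of_certify low100_nearA
  nearB_nonneg := nearB_of_certify low100_nearB
  farA_nonneg := farA_of_certify low100_farA
  farB_nonneg := farB_of_certify low100_farB

theorem exp_le_low100 : Real.exp (48 / 100) * (low100.geo.hk : ℝ) ≤ (low100.ev : ℝ) := by
  have h2 : Real.exp (48 / 100 : ℝ) ≤ 161620 / 100000 := by
    have h := Real.exp_bound' (x := (48 / 100 : ℝ)) (by norm_num) (by norm_num) (n := 6) (by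
      norm_num)
    refine h.trans ?_
    norm_num [Finset.sum_range_succ, Nat.factorial]
  refine le_trans (mul_le_mul_of_nonneg_right h2 (by norm_num [low100, geo100])) ?_
  norm_num [low100, geo100]

/-- The cell from sixteen to 48 / 100. -/
theorem corCell_low100 {p : ℕ} (hp : 98 ≤ p) :
    CorCell p (16 / ((p : ℝ) + 2)) (48 / 100) := by
  have hp' : (98 : ℝ) ≤ p := by exact_mod_cast hp
  refine corCell_of_data good_low100 (by norm_num [low100, geo100]; linarith) (by norm_num)
    exp_le_low100 ?_
  have h0 : 0 ≤ tailConst low100 := tailConst_nonneg good_low100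
  have h1 : tailConst low100 ≤ 25 := by norm_num [tailConst, devConst, low100, geo100, Data.G,
    abs_of_neg]
  have h : tailMoment low100 ≤ 1130 / 100000 := by
    norm_num [tailMoment, tailProd, low100, geo100, Finset.prod_range_succ]
  have h2 : tailConst low100 * tailMoment low100 ≤ 25 * (1130 / 100000) :=
    (mul_le_mul_of_nonneg_left h h0).trans (mul_le_mul_of_nonneg_right h1 (by norm_num))
  norm_num [low100, geo100] at h2 ⊢
  linarith

end Vale.Agent.P237.Petty.Cor.Top
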