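import Vale.Agent.P100.Bernstein.Cert
import Mathlib.Data.Rat.Cast.Defs

/-!
# P237: the polynomials of a cell for large values

The claims of a cell, written once over the reals and the expressions of the kernel check, with
`z = s ^ 2`, `e = 1 / (p + 1)` and `(Y, F)` proportional to `((p + 1) s ^ 2, 1)`.
-/

namespace Vale.Agent.P237.Petty.Cor.Top

/-- The range of a cell and the constants of its elementary bounds. -/
structure Geo where
  /-- The least `p + 1`. -/
  m0 : ℚ
  /-- The end of the inner abscissae, for the square. -/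
  z1 : ℚ
  /-- The end of the first chart, for `√(p + 1) s`. -/
  xs : ℚ
  /-- Above the half circle times `√(p + 3)`. -/
  hk : ℚ
  /-- Above `√((p + 3) / (p + 1))`. -/
  qs : ℚ
  /-- Above `1 / √m0`. -/
  rs : ℚ
  /-- The coefficient of `z ^ 2` above `1 / arc`. -/
  q1 : ℚ
  /-- The coefficient of `z ^ 2` above `1 / (1 - z)`. -/
  q2 : ℚ
  /-- The coefficient of `z ^ 2` above `(arc ^ (-3) - 1) / z`. -/
  q3 : ℚ
  /-- The power of the crude part. -/
  deg : ℕ

/-- The range `200 ≤ p + 2`. -/
def geo200 : Geo where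
  m0 := 199
  z1 := 19 / 100
  xs := 614 / 100
  hk := 12566 / 10000
  qs := 503 / 500
  rs := 709 / 10000
  q1 := 9 / 20
  q2 := 13 / 10
  q3 := 14 / 5
  deg := 19

/-- The range `100 ≤ p + 2`. -/
def geo100 : Geo where
  m0 := 99
  z1 := 32 / 100
  xs := 563 / 100
  hk := 12600 / 10000
  qs := 10101 / 10000
  rs := 1006 / 10000
  q1 := 52 / 100
  q2 := 148 / 100
  q3 := 341 / 100
  deg := 23

/-- The constants of a cell. -/
structure Data where
  /-- The range. -/
  geo : Geo
  /-- The excess of the multiplier of the axial term. -/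
  th : ℚ
  /-- The slope of the test. -/
  g : ℚ
  /-- The pole of the square potential. -/
  a : ℚ
  /-- The constant of the linear potential. -/
  l0 : ℚ
  /-- The slope of the linear potential. -/
  l1 : ℚ
  /-- The end of the first range of `1 / r`. -/
  v1 : ℚ
  /-- The factor of the largest `1 / r`. -/
  ev : ℚ
  /-- A coefficient of the remainder. -/
  r00 : ℚ
  /-- A coefficient of the remainder. -/
  r10 : ℚ
  /-- A coefficient of the remainder. -/
  r20 : ℚ
  /-- A coefficient of the remainder. -/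
  r30 : ℚ
  /-- A coefficient of the remainder. -/
  r21 : ℚ
  /-- A coefficient of the remainder. -/
  r31 : ℚ
  /-- A coefficient of the remainder. -/
  r32 : ℚ
  /-- A coefficient of the remainder. -/
  r34 : ℚ := 0

/-- The factor of the shadow. -/
def Data.G (d : Data) : ℚ := 1 + 2 * d.th

/-- The share of the square of the abscissa in the coefficient of `u ^ 2 / v`. -/
def Data.side (d : Data) : ℚ := (1 - d.g) ^ 2 / (2 * d.g)

section

variable {α : Type} [Add α] [Sub α] [Mul α] [Pow α ℕ] (C : ℚ → α) (d : Data)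

/-- Above the reciprocal of the half circle. -/
def invArc (z : α) : α := C 1 + C (1 / 2) * z + C d.geo.q1 * z ^ 2

/-- Below `(arc ^ (-3) - 1) / z`. -/
def cubeLo (z : α) : α := C (3 / 2) + C (15 / 8) * z + C (35 / 16) * z ^ 2

/-- Above `(arc ^ (-3) - 1) / z`. -/
def cubeHi (z : α) : α := C (3 / 2) + C (15 / 8) * z + C d.geo.q3 * z ^ 2

/-- Below the positive part of the coefficient of `u ^ 2 / v`. -/
def numLo (z e : α) : α :=
  C (1 + d.g) * (C (d.th + 1 / 8) - C 2 * e) * (C 2 * (C 1 - z) - C d.side * z)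

/-- Above the shadow coefficient. -/
def shadeHi (z e : α) : α := C d.G * (C 1 - C (1 / 2) * e * (C 1 - C 2 * e)) * invArc C d z

/-- The linear potential, homogeneous. -/
def lin (Y F : α) : α := C d.l0 * F + C d.l1 * Y

/-- Below the coefficient of `(t - s) ^ 2`, times `y / m`, homogeneous. -/
def sqr (e Y F : α) : α :=
  C d.a * F +
    (C d.a * (C 1 + e) - (C (d.th + 1 / 8) + C (3 / 2) * e) * C (d.g ^ 2) * (C 1 + C 3 * e)) * Y

/-- Below the linear coefficient in `t - s`, times `(1 - z) / s`. -/
def slopeLo (z e Y F : α) : α :=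
  (C 1 - z) * ((C 1 - e) * (C d.G * Y * cubeLo C z -
      C (1 / 2) * C d.G * (C 1 + z * cubeLo C z) * F - F) + C (2 * d.l1 - 8 * d.th) * F) -
    lin C d Y F

/-- Above the linear coefficient in `t - s`, times `(1 - z) / s`. -/
def slopeHi (z e Y F : α) : α :=
  (C 1 - z) * ((C 1 - e) * (C d.G * Y * cubeHi C d z -
      C (1 / 2) * (C 1 - C 2 * e) * C d.G * (C 1 + z * cubeHi C d z) * F - (C 1 - e) * F) +
      C (2 * d.l1 - 8 * d.th) * F) - lin C d Y F

/-- The remainder, homogeneous of degree three. -/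
def rho (z Y F : α) : α :=
  C d.r00 * F ^ 3 + C d.r10 * (Y * F ^ 2) + C d.r20 * (Y ^ 2 * F) + C d.r30 * Y ^ 3 +
    (C d.r21 * (Y ^ 2 * F) + C d.r31 * Y ^ 3) * z + C d.r32 * Y ^ 3 * z ^ 2 +
    C d.r34 * Y ^ 3 * z ^ 4

/-- The coefficient of `u ^ 2` up to `v1`, times the coefficient of the square. -/
def lead (z e Y F : α) : α :=
  (numLo C d z e - shadeHi C d z e * C ((2 * d.v1 + 1) / (2 * (d.v1 + 2)))) * C (1 / d.v1) *
      sqr C d e Y F - C (d.a ^ 2) * (C 1 - z) ^ 2 * F

/-- The vertex claim up to `v1`. -/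
def near (z e Y F S : α) : α :=
  lead C d z e Y F * (C 4 * rho C d z Y F * sqr C d e Y F * (C 1 - z) ^ 2 - Y ^ 2 * S ^ 2) -
    F * (C 1 - z) ^ 2 * (lin C d Y F * sqr C d e Y F + C d.a * Y * S) ^ 2

/-- The sign claim beyond `v1`, with `v = w / f` and `q = e / f ^ 2`. -/
def far (z e q Y F f w S : α) : α :=
  (lin C d Y F * sqr C d e Y F + C d.a * Y * S) * q * (C 2 * w * (w + C 2 * f)) +
    (C 2 * (w + C 2 * f) * numLo C d z e - shadeHi C d z e * (C 2 * w + f)) * sqr C d e Y F *
      (w - f) -
    C 2 * C (d.a ^ 2) * (C 1 - z) ^ 2 * f * (w * (w + C 2 * f) * (w - f))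

/-- The largest `1 / r`, times `f`. -/
def top (z x f : α) : α := C d.ev * (C d.geo.qs * x + f) * (C 1 + z + C d.geo.q2 * z ^ 2)

/-- The point between `v1` and the largest `1 / r`, times `f`. -/
def between (z x f tau : α) : α := C d.v1 * f + tau * (top C d z x f - C d.v1 * f)

/-- The vertex claim in `(y, e)`. -/
def nearA (sl : α → α → α → α → α) (y e : α) : α :=
  near C d (y * e) e y (C 1) (sl (y * e) e y (C 1))

/-- The vertex claim in `(z, 1 / y)`. -/
def nearB (sl : α → α → α → α → α) (z φ : α) : α :=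
  near C d z (z * φ) (C 1) φ (sl z (z * φ) (C 1) φ)

/-- The positivity of the coefficient in `(y, e)`. -/
def leadA (y e : α) : α := lead C d (y * e) e y (C 1)

/-- The positivity of the coefficient in `(z, 1 / y)`. -/
def leadB (z φ : α) : α := lead C d z (z * φ) (C 1) φ

/-- The sign claim in `(√y, e, τ)`. -/
def farA (sl : α → α → α → α → α) (x e tau : α) : α :=
  far C d (x * x * e) e e (x * x) (C 1) (C 1) (between C d (x * x * e) x (C 1) tau)
    (sl (x * x * e) e (x * x) (C 1))

/-- The sign claim in `(z, 1 / √y, τ)`. -/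
def farB (sl : α → α → α → α → α) (z f tau : α) : α :=
  far C d z (z * (f * f)) z (C 1) (f * f) f (between C d z (C 1) f tau)
    (sl z (z * (f * f)) (C 1) (f * f))

end

/-- The cell from twenty-four to the large regime. -/
def wide : Data where
  geo := geo200
  th := 513 / 200
  g := 563 / 2000
  a := 161 / 500
  l0 := -553 / 100
  l1 := 457 / 50
  v1 := 26 / 25
  ev := 3374 / 1000
  r00 := 59 / 25
  r10 := -353 / 50
  r20 := 289 / 50
  r30 := 1 / 50
  r21 := 56 / 5
  r31 := 3 / 5
  r32 := 32

open P100.Bernstein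

/-- A rational as an expression. -/
def ofRat (q : ℚ) : Expr := .frac q.num q.den

end Vale.Agent.P237.Petty.Cor.Top
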