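import Vale.Agent.P237.Petty.Cor.Bridge
import Vale.Agent.P237.Petty.Cor.RateBound
import Vale.Agent.P237.Petty.Cor.Top.Poly

/-!
# P237: the scalar bounds of a cell for large values

Rational bounds, in `e = 1 / (p + 1)` and `z = s ^ 2`, of the constants and of the powers of the
half circle, and the bound of `1 / r` linear in `√(p + 1) s`.
-/

namespace Vale.Agent.P237.Petty.Cor.Top

open Set
open Ident (half)

variable {p : ℕ}

/-- A rational as a real number. -/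
noncomputable def toReal (q : ℚ) : ℝ := q

/-- The powers of the half circle on the inner part. -/
theorem arc_bounds {d : Data} {s : ℝ} (hs : s ∈ Ioo (0 : ℝ) 1)
    (hq : 0 ≤ (d.geo.q1 : ℝ) ∧ 0 ≤ (d.geo.q3 : ℝ))
    (b : 1 ≤ invArc toReal d (s ^ 2) ^ 2 * (1 - s ^ 2) ∧
      (1 + s ^ 2 * cubeLo toReal (s ^ 2)) ^ 2 * (1 - s ^ 2) ^ 3 ≤ 1 ∧
        1 ≤ (1 + s ^ 2 * cubeHi toReal d (s ^ 2)) ^ 2 * (1 - s ^ 2) ^ 3) :
    1 / arc s ≤ invArc toReal d (s ^ 2) ∧ 1 + s ^ 2 * cubeLo toReal (s ^ 2) ≤ 1 / arc s ^ 3 ∧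
      1 / arc s ^ 3 ≤ 1 + s ^ 2 * cubeHi toReal d (s ^ 2) := by
  have hc : 0 < arc s := arc_pos ⟨by linarith [hs.1], hs.2⟩
  have h2 : arc s ^ 2 = 1 - s ^ 2 := Real.sq_sqrt (by nlinarith [hs.1, hs.2])
  obtain ⟨b1, b2, b3⟩ := b
  obtain ⟨hq1, hq3⟩ := hq
  have n1 : 0 ≤ invArc toReal d (s ^ 2) := by
    simp only [invArc, toReal]; push_cast; positivity
  have n2 : 0 ≤ 1 + s ^ 2 * cubeLo toReal (s ^ 2) := by
    simp only [cubeLo, toReal]; push_cast; positivity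
  have n3 : 0 ≤ 1 + s ^ 2 * cubeHi toReal d (s ^ 2) := by
    simp only [cubeHi, toReal]; push_cast; positivity
  refine ⟨?_, ?_, ?_⟩
  · rw [div_le_iff₀ hc]
    refine (pow_le_pow_iff_left₀ zero_le_one (mul_nonneg n1 hc.le) two_ne_zero).1 ?_
    rw [mul_pow, h2]
    simpa using b1
  · rw [le_div_iff₀ (pow_pos hc 3)]
    refine (pow_le_pow_iff_left₀ (mul_nonneg n2 (pow_pos hc 3).le) zero_le_one two_ne_zero).1 ?_
    rw [mul_pow, ← pow_mul, show 3 * 2 = 2 * 3 from rfl, pow_mul, h2]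
    simpa using b2
  · rw [div_le_iff₀ (pow_pos hc 3)]
    refine (pow_le_pow_iff_left₀ zero_le_one (mul_nonneg n3 (pow_pos hc 3).le) two_ne_zero).1 ?_
    rw [mul_pow, ← pow_mul, show 3 * 2 = 2 * 3 from rfl, pow_mul, h2]
    simpa using b3

/-- The ratio of the half circles in `e = 1 / (p + 1)`. -/
theorem b0_bounds (p : ℕ) :
    1 - 1 / ((p : ℝ) + 1) / 2 ≤ Ident.b0 p ∧
      Ident.b0 p ≤ 1 - 1 / 2 * (1 / ((p : ℝ) + 1)) * (1 - 2 * (1 / ((p : ℝ) + 1))) ∧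
        1 + 1 / ((p : ℝ) + 1) * (1 - 1 / ((p : ℝ) + 1)) ≤ 1 / Ident.b0 p ^ 2 ∧
          1 / Ident.b0 p ^ 2 ≤ 1 + 1 / ((p : ℝ) + 1) := by
  have hb := Ident.b0_pos p
  obtain ⟨h1, h2⟩ := b0_sq_bounds p
  have hm : (0 : ℝ) < (p : ℝ) + 1 := by positivity
  obtain ⟨e, he0, he1, hpe⟩ : ∃ e : ℝ, 0 < e ∧ e ≤ 1 ∧ (p : ℝ) = 1 / e - 1 :=
    ⟨1 / ((p : ℝ) + 1), by positivity, by
      rw [div_le_one hm]; linarith [(Nat.cast_nonneg p : (0 : ℝ) ≤ p)], by rw [one_div_one_div]; ring⟩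
  rw [show 1 / ((p : ℝ) + 1) = e by rw [hpe]; field_simp; ring]
  have a1 : (2 + e) / (2 + 3 * e) ≤ Ident.b0 p ^ 2 := by
    refine le_trans (le_of_eq ?_) h1
    rw [hpe, show 2 * (1 / e - 1) + 3 = (2 + e) / e by field_simp; ring,
      show 2 * (1 / e - 1) + 5 = (2 + 3 * e) / e by field_simp; ring,
      div_div_div_cancel_right₀ he0.ne']
  have a2 : Ident.b0 p ^ 2 ≤ (1 + e) / (1 + 2 * e) := by
    refine h2.trans (le_of_eq ?_)
    rw [hpe, show 1 / e - 1 + 2 = (1 + e) / e by field_simp; ring,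
      show 1 / e - 1 + 3 = (1 + 2 * e) / e by field_simp; ring,
      div_div_div_cancel_right₀ he0.ne']
  rw [div_le_iff₀ (by positivity)] at a1
  rw [le_div_iff₀ (by positivity)] at a2
  refine ⟨?_, ?_, ?_, ?_⟩
  · refine (pow_le_pow_iff_left₀ (by linarith) hb.le two_ne_zero).1 ?_
    nlinarith [mul_nonneg he0.le (sq_nonneg e)]
  · refine (pow_le_pow_iff_left₀ hb.le (by nlinarith) two_ne_zero).1 ?_
    nlinarith [mul_nonneg he0.le (sq_nonneg e), mul_nonneg (sq_nonneg e) (sub_nonneg.2 he1),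
      pow_nonneg he0.le 4, pow_nonneg he0.le 5]
  · rw [le_div_iff₀ (pow_pos hb 2)]
    nlinarith [mul_nonneg (mul_nonneg he0.le he0.le) he0.le, pow_pos hb 2]
  · rw [div_le_iff₀ (pow_pos hb 2)]
    nlinarith [mul_nonneg (mul_nonneg he0.le he0.le) he0.le, pow_pos hb 2]

/-- The half circle against the square root. -/
theorem half_mul_sqrt_le {m0 hk : ℝ} (hm0 : 0 < m0) (hp : m0 ≤ (p : ℝ) + 1) (h0 : 0 ≤ hk)
    (hc : 157085 / 100000 * ((m0 + 2) / (m0 + 1)) ≤ hk ^ 2) :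
    half (p + 1) * √((p : ℝ) + 3) ≤ hk := by
  have h := LargeN.circ_sq_le_div (p + 1) (by omega)
  rw [Ident.circ_eq_half] at h
  push_cast at h
  refine (pow_le_pow_iff_left₀ (mul_nonneg (Ident.half_pos _).le (Real.sqrt_nonneg _))
    h0 two_ne_zero).1 ?_
  rw [mul_pow, Real.sq_sqrt (by positivity)]
  refine le_trans ?_ hc
  rw [le_div_iff₀ (by positivity)] at h
  rw [← mul_div_assoc, le_div_iff₀ (by linarith)]
  refine le_of_mul_le_mul_right ?_ (show (0 : ℝ) < (p : ℝ) + 2 by positivity)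
  have hpi : Real.pi ≤ 31416 / 10000 := le_trans Real.pi_lt_d4.le (by norm_num)
  have h1 := mul_le_mul_of_nonneg_right (show half (p + 1) ^ 2 * ((p : ℝ) + 2) ≤ 157085 / 100000 by
    linarith) (show 0 ≤ ((p : ℝ) + 3) * (m0 + 1) by positivity)
  have h2 : ((p : ℝ) + 3) * (m0 + 1) ≤ (m0 + 2) * ((p : ℝ) + 2) := by linarith
  linarith [mul_le_mul_of_nonneg_left h2 (show (0 : ℝ) ≤ 157085 / 100000 by norm_num)]

/-- The bound of `1 / r` linear in `√(p + 1) s`. -/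
theorem inv_rate_le_line {m0 hk qs ell s t a r q E : ℝ} (hm0 : 0 < m0) (hp : m0 ≤ (p : ℝ) + 1)
    (hk1 : 1 ≤ hk) (hc' : 157085 / 100000 * ((m0 + 2) / (m0 + 1)) ≤ hk ^ 2) (hqs : 0 ≤ qs)
    (hqs2 : (m0 + 2) / m0 ≤ qs ^ 2) (h : FlatState p ell s t a r q)
    (hE : Real.exp ell * hk ≤ E) :
    1 / r ≤ E * (qs * (√((p : ℝ) + 1) * s) + 1) / arc s ^ 2 := by
  have hs := h.state.s_mem
  have hc := h.state.arc_pos'
  have hc1 : arc s ^ 2 ≤ 1 :=
    pow_le_one₀ hc.le (Real.sqrt_le_one.2 (by nlinarith [hs.1]))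
  have hex := Real.exp_pos ell
  have hx : 0 ≤ qs * (√((p : ℝ) + 1) * s) :=
    mul_nonneg hqs (mul_nonneg (Real.sqrt_nonneg _) hs.1.le)
  have hl : Real.exp ell ≤ E * (qs * (√((p : ℝ) + 1) * s) + 1) / arc s ^ 2 := by
    rw [le_div_iff₀ (pow_pos hc 2)]
    have hEl : Real.exp ell ≤ E := (le_mul_of_one_le_right hex.le hk1).trans hE
    nlinarith [mul_le_mul_of_nonneg_left hc1 hex.le, mul_nonneg (show 0 ≤ E by linarith) hx]
  refine (h.inv_rate_le_base_max (u := 0) ⟨le_rfl, hs.1.le⟩).trans (max_le hl ?_)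
  have h0 : Lift.circLow p 0 = 0 := intervalIntegral.integral_same
  have h1 : Lift.circHigh p 0 = half (p + 1) := rfl
  have ha : arc (0 : ℝ) = 1 := by simp [arc]
  rw [h0, h1, ha, mul_zero, add_zero, one_pow, one_mul]
  have hcp := pow_pos hc (p + 3)
  have hd := millsDen_pos (p := p) hs.1.le
  refine (div_le_div_of_nonneg_left (mul_nonneg (mul_nonneg hex.le (pow_pos hc _).le)
    (Ident.half_pos _).le) (div_pos hcp hd) (circHigh_ge (Ioo_subset_Icc_self hs))).trans ?_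
  have hk : √((p : ℝ) + 3) * (√((p : ℝ) + 3) * s + 1) = millsDen p s := by
    rw [mul_add, ← mul_assoc, Real.mul_self_sqrt (by positivity), mul_one]
    rfl
  have hq : √((p : ℝ) + 3) ≤ qs * √((p : ℝ) + 1) := by
    refine (pow_le_pow_iff_left₀ (Real.sqrt_nonneg _) (by positivity) two_ne_zero).1 ?_
    rw [mul_pow, Real.sq_sqrt (by positivity), Real.sq_sqrt (by positivity)]
    refine le_trans ?_ (mul_le_mul_of_nonneg_right hqs2 (by positivity))
    rw [div_mul_eq_mul_div, le_div_iff₀ hm0]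
    linarith
  have e : Real.exp ell * arc s ^ (p + 1) * half (p + 1) / (arc s ^ (p + 3) / millsDen p s) =
      Real.exp ell * (half (p + 1) * √((p : ℝ) + 3)) * (√((p : ℝ) + 3) * s + 1) / arc s ^ 2 := by
    rw [← hk, show arc s ^ (p + 3) = arc s ^ (p + 1) * arc s ^ 2 by ring]
    field_simp
  rw [e]
  refine div_le_div_of_nonneg_right ?_ (pow_pos hc 2).le
  exact mul_le_mul ((mul_le_mul_of_nonneg_left (half_mul_sqrt_le hm0 hp (by linarith) hc') hex.le).trans hE)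
    (by linarith [mul_le_mul_of_nonneg_right hq hs.1.le])
    (add_nonneg (mul_nonneg (Real.sqrt_nonneg _) hs.1.le) zero_le_one) ((mul_nonneg hex.le (by linarith)).trans hE)

end Vale.Agent.P237.Petty.Cor.Top
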