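import Vale.Agent.P237.Petty.Cor.Top.Point

/-!
# P237: the cancelled cell for large values, crude

Everywhere the part without weight is above minus a constant times `(p + 1) / arc s ^ 4`.
-/

namespace Vale.Agent.P237.Petty.Cor.Top

open Set

variable {p : ℕ} {d : Data}

/-- The factor of the bound of `|1 / r - 1|`. -/
noncomputable def devConst (d : Data) : ℝ := ((d.geo.qs : ℝ) + (d.geo.rs : ℝ)) * d.ev + (d.geo.rs : ℝ)

/-- The factor of the crude bound. -/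
noncomputable def tailConst (d : Data) : ℝ :=
  2 * d.G + (1 + 1 / (d.geo.m0 : ℝ)) + 2 * d.th * ((1 + 3 / (d.geo.m0 : ℝ))) + |(d.l1 : ℝ)| +
    (2 * |(d.l1 : ℝ)| + |(d.l0 : ℝ)|) / (d.geo.m0 : ℝ) + 10 * ((d.th : ℝ) + 1 / 8 + 3 / 2 / (d.geo.m0 : ℝ)) / (d.geo.m0 : ℝ) +
    ((d.G : ℝ) + |(d.l0 : ℝ)| / (d.geo.m0 : ℝ) + |(d.l1 : ℝ)|) * devConst d * (d.geo.rs : ℝ) +
    d.a * devConst d ^ 2

theorem abs_mul_sub_le {s t : ℝ} (hs : s ∈ Ioo (0 : ℝ) 1) (ht : t ∈ Ioo (0 : ℝ) 1) :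
    |s * (t - s)| ≤ 1 := by
  rw [abs_mul, abs_of_pos hs.1]
  exact mul_le_one₀ hs.2.le (abs_nonneg _)
    (abs_le.2 ⟨by linarith [hs.2, ht.1], by linarith [hs.1, ht.2]⟩)

theorem testDef_ge {g s t r : ℝ} (hg : 0 ≤ g) (hg1 : g ≤ 1) (hs : s ∈ Ioo (0 : ℝ) 1)
    (ht : t ≤ 1) (hr : 0 < r) :
    -8 + 2 * (1 - g ^ 2) * (s * (t - s)) - g ^ 2 * ((p : ℝ) + 4) * (t - s) ^ 2 ≤
      testDef p g s t r := by
  have e : testDef p g s t r =
      r * (2 * (1 + g) * (1 - s ^ 2 + g * (t - s) ^ 2 - (1 - g) * (s * (t - s)))) +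
        2 * (1 + g) * (1 - s ^ 2) / r - 4 * (1 + g) * (1 - s ^ 2) +
        2 * (1 - g ^ 2) * (s * (t - s)) - g ^ 2 * ((p : ℝ) + 4) * (t - s) ^ 2 := by
    simp only [testDef]
    field_simp
    ring
  have hz : 0 ≤ 1 - s ^ 2 := by nlinarith [hs.1, hs.2]
  have h1 : (1 - g) * (s * (t - s)) ≤ 1 - s ^ 2 := by
    refine (mul_le_mul_of_nonneg_left (mul_le_mul_of_nonneg_left (sub_le_sub_right ht s) hs.1.le)
      (sub_nonneg.2 hg1)).trans ?_
    have : 0 ≤ s * (1 - s) := mul_nonneg hs.1.le (sub_nonneg.2 hs.2.le)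
    nlinarith [mul_le_of_le_one_left this (show 1 - g ≤ 1 by linarith), hs.2]
  have h2 : 0 ≤ r * (2 * (1 + g) * (1 - s ^ 2 + g * (t - s) ^ 2 - (1 - g) * (s * (t - s)))) :=
    mul_nonneg hr.le (mul_nonneg (by linarith) (by linarith [mul_nonneg hg (sq_nonneg (t - s))]))
  have h3 : 0 ≤ 2 * (1 + g) * (1 - s ^ 2) / r := by positivity
  have h4 : 4 * (1 + g) * (1 - s ^ 2) ≤ 8 := by
    nlinarith [mul_le_mul_of_nonneg_left (show 1 - s ^ 2 ≤ 1 by nlinarith [sq_nonneg s])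
      (show 0 ≤ 1 + g by linarith)]
  linarith

theorem cancelExpr_eq (gam nu ell g : ℝ) (k k' β β' : ℝ → ℝ) (s t a : ℝ) {r : ℝ} (hr : r ≠ 0) :
    cancelExpr p gam nu ell (fun s t => s + g * (s - t)) (fun _ _ => 1 + g) (fun _ _ => -g)
        (quadPot k β) (quadPotS k k' β β') (quadPotT k β) s t a r =
      ell * wS p (arc s) + nu * testDef p g s t r + gam * Ident.b0 p * (1 / a - 1 / arc s) +
        k s * (1 / r - 1) + cancelD p nu k k' s * (t - s) +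
        (β' s - potRate p s * β s) * (t - s) ^ 2 + 2 * β s * ((1 / r - 1) * (t - s)) := by
  simp only [cancelExpr, testGen_affine g s t hr, nullPart, quadPot, quadPotS, quadPotT, cancelD,
    potRate]
  field_simp
  ring

theorem four_le_of_m0 (hd : Good d) (hp : (d.geo.m0 : ℝ) ≤ (p : ℝ) + 1) : 4 ≤ p := by
  have h : (4 : ℝ) ≤ p := by linarith [hd.m0_ge]
  exact_mod_cast h

theorem slopeT_abs (hd : Good d) (hp : (d.geo.m0 : ℝ) ≤ (p : ℝ) + 1) {s : ℝ} (hs : s ∈ Ioo (0 : ℝ) 1) :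
    |slopeT p d s| ≤ ((d.G : ℝ) + (1 + 1 / (d.geo.m0 : ℝ)) + 2 * d.th * ((1 + 3 / (d.geo.m0 : ℝ))) + |(d.l1 : ℝ)| +
      (2 * |(d.l1 : ℝ)| + |(d.l0 : ℝ)|) / (d.geo.m0 : ℝ)) * (((p : ℝ) + 1) / arc s ^ 4) := by
  have hc : 0 < arc s := arc_pos ⟨by linarith [hs.1], hs.2⟩
  have hc1 : arc s ≤ 1 := Real.sqrt_le_one.2 (by nlinarith [hs.1])
  have hm30 := hd.m0_ge
  have hm : (0 : ℝ) < (p : ℝ) + 1 := by positivity
  have hG : 0 ≤ (d.G : ℝ) := by rw [G_eq]; linarith [hd.th_nonneg]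
  have hb := Ident.b0_pos p
  have hb4 := (b0_bounds p).2.2.2
  set M := ((p : ℝ) + 1) / arc s ^ 4 with hM
  have hM0 : (p : ℝ) + 1 ≤ M := le_div_self hm.le (pow_pos hc 4) (pow_le_one₀ hc.le hc1)
  have hMm : (d.geo.m0 : ℝ) ≤ M := by linarith
  have t1 : |(p : ℝ) * ((d.G : ℝ) * Ident.b0 p / arc s ^ 3)| ≤ (d.G : ℝ) * M := by
    rw [abs_of_nonneg (by positivity), hM, mul_div_assoc', mul_div_assoc']
    refine (div_le_div_of_nonneg_left (by positivity) (pow_pos hc 4)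
      (pow_le_pow_of_le_one hc.le hc1 (by omega))).trans (div_le_div_of_nonneg_right ?_ (pow_pos hc 4).le)
    nlinarith [mul_le_mul_of_nonneg_left (b0_le_one p) (mul_nonneg (Nat.cast_nonneg p) hG)]
  have t2 : |(p : ℝ) * (1 / Ident.b0 p ^ 2)| ≤ (1 + 1 / (d.geo.m0 : ℝ)) * M := by
    rw [abs_of_nonneg (by positivity), mul_comm]
    refine mul_le_mul (hb4.trans ?_) (by linarith) (Nat.cast_nonneg p) (by positivity)
    have : 1 / ((p : ℝ) + 1) ≤ 1 / (d.geo.m0 : ℝ) := one_div_le_one_div_of_le (by linarith) hp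
    linarith
  have t3 : |2 * (d.th : ℝ) * ((p : ℝ) + 4)| ≤ 2 * d.th * ((1 + 3 / (d.geo.m0 : ℝ))) * M := by
    have := hd.th_nonneg
    rw [abs_of_nonneg (by positivity)]
    nlinarith [mul_le_mul_of_nonneg_left
      (show (p : ℝ) + 4 ≤ (1 + 3 / (d.geo.m0 : ℝ)) * M by
        have := mul_le_mul_of_nonneg_left hMm (show 0 ≤ 3 / (d.geo.m0 : ℝ) by positivity)
        rw [div_mul_cancel₀ _ (by linarith : (d.geo.m0 : ℝ) ≠ 0)] at this
        linarith) (show 0 ≤ 2 * (d.th : ℝ) by linarith)]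
  have t4 : |2 * (d.l1 : ℝ)| ≤ 2 * |(d.l1 : ℝ)| / (d.geo.m0 : ℝ) * M := by
    rw [abs_mul, abs_two, div_mul_eq_mul_div, le_div_iff₀ (by linarith)]
    nlinarith [mul_le_mul_of_nonneg_left hMm (abs_nonneg (d.l1 : ℝ))]
  have t5 : |((d.l0 : ℝ) + d.l1 * (((p : ℝ) + 1) * s ^ 2)) / arc s ^ 2| ≤
      (|(d.l0 : ℝ)| / (d.geo.m0 : ℝ) + |(d.l1 : ℝ)|) * M := by
    rw [abs_div, abs_of_nonneg (sq_nonneg (arc s))]
    have h5 : |(d.l0 : ℝ) + d.l1 * (((p : ℝ) + 1) * s ^ 2)| ≤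
        (|(d.l0 : ℝ)| / (d.geo.m0 : ℝ) + |(d.l1 : ℝ)|) * ((p : ℝ) + 1) := by
      have h0 : |(d.l0 : ℝ)| ≤ |(d.l0 : ℝ)| / (d.geo.m0 : ℝ) * ((p : ℝ) + 1) := by
        rw [div_mul_eq_mul_div, le_div_iff₀ (by linarith)]
        exact mul_le_mul_of_nonneg_left hp (abs_nonneg _)
      refine (abs_add_le _ _).trans ?_
      rw [abs_mul, abs_of_nonneg (show 0 ≤ ((p : ℝ) + 1) * s ^ 2 by positivity)]
      nlinarith [h0,
        mul_le_mul_of_nonneg_left (mul_le_of_le_one_right hm.le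
          (pow_le_one₀ hs.1.le hs.2.le : s ^ 2 ≤ 1)) (abs_nonneg (d.l1 : ℝ))]
    rw [hM, mul_div_assoc']
    exact (div_le_div_of_nonneg_left (abs_nonneg _) (pow_pos hc 4)
      (pow_le_pow_of_le_one hc.le hc1 (by omega))).trans
      (div_le_div_of_nonneg_right h5 (pow_pos hc 4).le)
  rw [abs_le] at t1 t2 t3 t4 t5 ⊢
  simp only [slopeT]
  have e : ((d.G : ℝ) + (1 + 1 / (d.geo.m0 : ℝ)) + 2 * d.th * ((1 + 3 / (d.geo.m0 : ℝ))) + |(d.l1 : ℝ)| +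
      (2 * |(d.l1 : ℝ)| + |(d.l0 : ℝ)|) / (d.geo.m0 : ℝ)) * M =
      (d.G : ℝ) * M + (1 + 1 / (d.geo.m0 : ℝ)) * M + 2 * d.th * (1 + 3 / (d.geo.m0 : ℝ)) * M +
        2 * |(d.l1 : ℝ)| / (d.geo.m0 : ℝ) * M + (|(d.l0 : ℝ)| / (d.geo.m0 : ℝ) + |(d.l1 : ℝ)|) * M := by ring
  rw [e]
  constructor <;> linarith

/-- The parts in `1 / r - 1`. -/
theorem dev_parts (hd : Good d) (hp : (d.geo.m0 : ℝ) ≤ (p : ℝ) + 1) {ell s t a r q : ℝ} (h : FlatState p ell s t a r q)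
    (hE : Real.exp ell * (d.geo.hk : ℝ) ≤ d.ev) :
    (d.a : ℝ) * (1 - s ^ 2) ^ 2 * (1 / r - 1) ^ 2 ≤
        (d.a : ℝ) * devConst d ^ 2 * (((p : ℝ) + 1) / arc s ^ 4) ∧
      -(((d.G : ℝ) + |(d.l0 : ℝ)| / (d.geo.m0 : ℝ) + |(d.l1 : ℝ)|) * devConst d * (d.geo.rs : ℝ) *
          (((p : ℝ) + 1) / arc s ^ 4)) ≤ linePot p d s * (1 / r - 1) := by
  have hs := h.state.s_mem
  have hr := h.state.rate_pos
  have hc := h.state.arc_pos'
  have hc1 : arc s ≤ 1 := Real.sqrt_le_one.2 (by nlinarith [hs.1])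
  have h2 : arc s ^ 2 = 1 - s ^ 2 := Real.sq_sqrt (by nlinarith [hs.1, hs.2])
  have hm30 := hd.m0_ge
  have hm : (0 : ℝ) < (p : ℝ) + 1 := by positivity
  have hG : 0 ≤ (d.G : ℝ) := by rw [G_eq]; linarith [hd.th_nonneg]
  have hb := Ident.b0_pos p
  have ha := hd.a_pos
  set M := ((p : ℝ) + 1) / arc s ^ 4 with hM
  set U := devConst d with hU
  have hsm : 1 ≤ (d.geo.rs : ℝ) * √((p : ℝ) + 1) := by
    refine (pow_le_pow_iff_left₀ zero_le_one (mul_nonneg hd.rs_ge.1 (Real.sqrt_nonneg _)) two_ne_zero).1 ?_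
    rw [mul_pow, Real.sq_sqrt hm.le, one_pow]
    exact hd.rs_ge.2.trans (mul_le_mul_of_nonneg_left hp (sq_nonneg _))
  have hu : |1 / r - 1| ≤ U * √((p : ℝ) + 1) / arc s ^ 2 := by
    have hc2 := pow_pos hc 2
    have hc2' : arc s ^ 2 ≤ 1 := pow_le_one₀ hc.le hc1
    have hev : 0 ≤ (d.ev : ℝ) := by linarith [hd.v1_gt, hd.v1_le]
    have hx1 : (d.geo.qs : ℝ) * (√((p : ℝ) + 1) * s) + 1 ≤ ((d.geo.qs : ℝ) + (d.geo.rs : ℝ)) * √((p : ℝ) + 1) := by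
      nlinarith [mul_le_mul_of_nonneg_left hs.2.le (mul_nonneg hd.qs_ge.1 (Real.sqrt_nonneg ((p : ℝ) + 1)))]
    have h1 := (inv_rate_le_line (by linarith : (0 : ℝ) < d.geo.m0) hp hd.hk_ge.1 hd.hk_ge.2
      hd.qs_ge.1 hd.qs_ge.2 h hE).trans
      (div_le_div_of_nonneg_right (mul_le_mul_of_nonneg_left hx1 hev) hc2.le)
    have h3 : 1 ≤ (d.geo.rs : ℝ) * √((p : ℝ) + 1) / arc s ^ 2 :=
      hsm.trans (le_div_self (by linarith) hc2 hc2')
    have h4 : 0 < 1 / r := one_div_pos.2 hr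
    have e : U * √((p : ℝ) + 1) / arc s ^ 2 =
        (d.ev : ℝ) * (((d.geo.qs : ℝ) + (d.geo.rs : ℝ)) * √((p : ℝ) + 1)) / arc s ^ 2 +
          (d.geo.rs : ℝ) * √((p : ℝ) + 1) / arc s ^ 2 := by
      rw [hU, devConst]; ring
    have := hd.qs_ge.1
    have := hd.rs_ge.1
    have h5 : 0 ≤ (d.ev : ℝ) * (((d.geo.qs : ℝ) + (d.geo.rs : ℝ)) * √((p : ℝ) + 1)) / arc s ^ 2 := by positivity
    rw [abs_le]
    constructor <;> linarith
  have hU0 : 0 ≤ U := by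
    have hev : 0 ≤ (d.ev : ℝ) := by linarith [hd.v1_gt, hd.v1_le]
    have := mul_nonneg (add_nonneg hd.qs_ge.1 hd.rs_ge.1) hev
    rw [hU, devConst]; linarith [hd.rs_ge.1]
  refine ⟨?_, ?_⟩
  · have := pow_le_pow_left₀ (abs_nonneg _) hu 2
    rw [sq_abs, div_pow, mul_pow, Real.sq_sqrt hm.le] at this
    refine (mul_le_mul_of_nonneg_left this (by positivity)).trans ?_
    rw [← h2, hM]
    refine le_trans (le_of_eq ?_) (mul_le_mul_of_nonneg_left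
      (le_div_self hm.le (pow_pos hc 4) (pow_le_one₀ hc.le hc1)) (by positivity))
    field_simp
  · set Kk := (d.G : ℝ) + |(d.l0 : ℝ)| / (d.geo.m0 : ℝ) + |(d.l1 : ℝ)| with hKk
    have hk : |linePot p d s| ≤ Kk / arc s := by
      have k1 : |-((d.G : ℝ) * Ident.b0 p) / arc s| ≤ (d.G : ℝ) / arc s := by
        rw [abs_div, abs_neg, abs_of_nonneg (by positivity : 0 ≤ (d.G : ℝ) * Ident.b0 p),
          abs_of_pos hc]
        exact div_le_div_of_nonneg_right (mul_le_of_le_one_right hG (b0_le_one p)) hc.le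
      have k2 : |(d.l0 : ℝ) / ((p : ℝ) + 1)| ≤ |(d.l0 : ℝ)| / (d.geo.m0 : ℝ) / arc s := by
        rw [abs_div, abs_of_pos hm]
        exact (div_le_div_of_nonneg_left (abs_nonneg _) (by linarith) hp).trans
          (le_div_self (by positivity) hc hc1)
      have k3 : |(d.l1 : ℝ) * s ^ 2| ≤ |(d.l1 : ℝ)| / arc s := by
        rw [abs_mul, abs_of_nonneg (sq_nonneg s)]
        exact (mul_le_of_le_one_right (abs_nonneg _) (pow_le_one₀ hs.1.le hs.2.le)).trans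
          (le_div_self (abs_nonneg _) hc hc1)
      refine (abs_add_three _ _ _).trans ?_
      rw [hKk, add_div, add_div]
      linarith
    have hK0 : 0 ≤ Kk := by positivity
    have := mul_le_mul hk hu (abs_nonneg _) (div_nonneg hK0 hc.le)
    rw [← abs_mul] at this
    have h3 : Kk / arc s * (U * √((p : ℝ) + 1) / arc s ^ 2) ≤ Kk * U * (d.geo.rs : ℝ) * M := by
      rw [hM, div_mul_div_comm, mul_div_assoc']
      refine (div_le_div_of_nonneg_left (by positivity) (pow_pos hc 4) ?_).trans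
        (div_le_div_of_nonneg_right ?_ (pow_pos hc 4).le)
      · rw [show arc s * arc s ^ 2 = arc s ^ 3 by ring]
        exact pow_le_pow_of_le_one hc.le hc1 (by omega)
      · have h6 := mul_le_mul_of_nonneg_left hsm
          (show 0 ≤ Kk * U * √((p : ℝ) + 1) by positivity)
        have e6 : Kk * U * √((p : ℝ) + 1) * ((d.geo.rs : ℝ) * √((p : ℝ) + 1)) =
            Kk * U * (d.geo.rs : ℝ) * (√((p : ℝ) + 1) * √((p : ℝ) + 1)) := by ring
        rw [e6, Real.mul_self_sqrt hm.le] at h6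
        linarith
    linarith [(abs_le.1 this).1]

/-- The crude bound. -/
theorem tail_ge (hd : Good d) (hp : (d.geo.m0 : ℝ) ≤ (p : ℝ) + 1) {ell s t a r q : ℝ} (h : FlatState p ell s t a r q)
    (hE : Real.exp ell * (d.geo.hk : ℝ) ≤ d.ev) :
    ell * wS p (arc s) - tailConst d * (((p : ℝ) + 1) / arc s ^ 4) ≤
      cancelExpr p (gamT p d) (nuT p d) ell (fun s t => s + (d.g : ℝ) * (s - t))
        (fun _ _ => 1 + (d.g : ℝ)) (fun _ _ => -(d.g : ℝ)) (quadPot (linePot p d) (polePot d))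
        (quadPotS (linePot p d) (linePot' p d) (polePot d) (polePot' d))
        (quadPotT (linePot p d) (polePot d)) s t a r := by
  have hs := h.state.s_mem
  have ht := h.state.t_mem
  have hr := h.state.rate_pos
  have hc := h.state.arc_pos'
  have hc1 : arc s ≤ 1 := Real.sqrt_le_one.2 (by nlinarith [hs.1])
  have h2 : arc s ^ 2 = 1 - s ^ 2 := Real.sq_sqrt (by nlinarith [hs.1, hs.2])
  have hm30 := hd.m0_ge
  have hm : (0 : ℝ) < (p : ℝ) + 1 := by positivity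
  have hG : 0 ≤ (d.G : ℝ) := by rw [G_eq]; linarith [hd.th_nonneg]
  have hb := Ident.b0_pos p
  have hg := hd.g_pos
  have ha := hd.a_pos
  have hth := hd.th_nonneg
  rw [cancelExpr_eq _ _ _ _ _ _ _ _ _ _ _ hr.ne', cancelD_eq hs, polePot_rate p d hs]
  set M := ((p : ℝ) + 1) / arc s ^ 4 with hM
  have hM0 : (p : ℝ) + 1 ≤ M := le_div_self hm.le (pow_pos hc 4) (pow_le_one₀ hc.le hc1)
  set U := devConst d with hU
  -- the multiplier
  have hn1 : nuT p d ≤ (d.th : ℝ) + 1 / 8 + 3 / 2 / (d.geo.m0 : ℝ) := by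
    have h8 := (nuS_bounds (p := p) (one_le_of_m0 hd hp)).2
    have : 3 / 2 / ((p : ℝ) + 1) ≤ 3 / 2 / (d.geo.m0 : ℝ) :=
      div_le_div_of_nonneg_left (by norm_num) (by linarith) hp
    rw [nuT]
    linarith
  have hn0 : 0 ≤ nuT p d := add_nonneg (nuS_nonneg (four_le_of_m0 hd hp)) hth
  -- the parts
  have p1 : -(10 * nuT p d) - nuT p d * (d.g : ℝ) ^ 2 * ((p : ℝ) + 4) * (t - s) ^ 2 ≤
      nuT p d * testDef p d.g s t r := by
    refine le_trans ?_ (mul_le_mul_of_nonneg_left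
      (testDef_ge hg.le hd.g_le hs ht.2.le hr) hn0)
    have hg2 : (d.g : ℝ) ^ 2 ≤ 1 := pow_le_one₀ hg.le hd.g_le
    have : -1 ≤ s * (t - s) := by nlinarith [hs.1, hs.2, ht.1]
    have := mul_le_mul_of_nonneg_left this (show 0 ≤ 2 * (1 - (d.g : ℝ) ^ 2) by linarith)
    nlinarith [mul_le_mul_of_nonneg_left (show -2 ≤ 2 * (1 - (d.g : ℝ) ^ 2) * (s * (t - s)) by
      linarith [sq_nonneg (d.g : ℝ)]) hn0]
  have p2 : -((d.G : ℝ) * M) ≤ gamT p d * Ident.b0 p * (1 / a - 1 / arc s) := by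
    have hga : 0 ≤ gamT p d * Ident.b0 p := mul_nonneg (mul_nonneg hG hm.le) hb.le
    have e1 : gamT p d * Ident.b0 p * (1 / arc s) ≤ (d.G : ℝ) * M := by
      rw [gamT, hM, mul_one_div, mul_div_assoc']
      exact (div_le_div_of_nonneg_right (mul_le_of_le_one_right (by positivity) (b0_le_one p))
        hc.le).trans (div_le_div_of_nonneg_left (by positivity) (pow_pos hc 4)
          (by simpa using pow_le_pow_of_le_one hc.le hc1 (show 1 ≤ 4 by norm_num)))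
    nlinarith [mul_nonneg hga (show 0 ≤ 1 / a from (one_div_pos.2 h.state.pos).le)]
  have p3 : nuT p d * (d.g : ℝ) ^ 2 * ((p : ℝ) + 4) * (t - s) ^ 2 + (d.a : ℝ) / s ^ 2 * (t - s) ^ 2 ≤
      (d.a : ℝ) * ((p : ℝ) + 2 + 1 / s ^ 2) * (t - s) ^ 2 := by
    have hx : nuT p d * (d.g : ℝ) ^ 2 * ((p : ℝ) + 4) ≤ (d.a : ℝ) * ((p : ℝ) + 2) := by
      have h8 := (nuS_bounds (p := p) (one_le_of_m0 hd hp)).2
      have h9 : 3 / 2 / ((p : ℝ) + 1) ≤ 3 / 2 / (d.geo.m0 : ℝ) :=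
        div_le_div_of_nonneg_left (by norm_num) (by linarith) hp
      have := mul_le_mul_of_nonneg_right (show nuT p d ≤ (d.th : ℝ) + 1 / 8 + 3 / 2 / (d.geo.m0 : ℝ) by
        rw [nuT]; linarith) (show 0 ≤ (d.g : ℝ) ^ 2 * ((p : ℝ) + 4) by positivity)
      have := mul_le_mul_of_nonneg_right hd.gap.le (show 0 ≤ (p : ℝ) + 2 by linarith)
      have := mul_le_mul_of_nonneg_left (show (p : ℝ) + 4 ≤ ((d.geo.m0 : ℝ) + 3) / (d.geo.m0 : ℝ) * ((p : ℝ) + 2) by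
          rw [div_mul_eq_mul_div, le_div_iff₀ (by linarith)]
          linarith)
        (show 0 ≤ ((d.th : ℝ) + 1 / 8 + 3 / 2 / (d.geo.m0 : ℝ)) * (d.g : ℝ) ^ 2 by positivity)
      linarith
    have := mul_le_mul_of_nonneg_right hx (sq_nonneg (t - s))
    rw [show (d.a : ℝ) * ((p : ℝ) + 2 + 1 / s ^ 2) * (t - s) ^ 2 =
      (d.a : ℝ) * ((p : ℝ) + 2) * (t - s) ^ 2 + (d.a : ℝ) / s ^ 2 * (t - s) ^ 2 by ring]
    linarith
  have p4 : -((d.a : ℝ) / s ^ 2 * (t - s) ^ 2) - (d.a : ℝ) * (1 - s ^ 2) ^ 2 * (1 / r - 1) ^ 2 ≤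
      2 * polePot d s * ((1 / r - 1) * (t - s)) := by
    have h0 := hs.1.ne'
    have e : 2 * polePot d s * ((1 / r - 1) * (t - s)) + (d.a : ℝ) / s ^ 2 * (t - s) ^ 2 +
        (d.a : ℝ) * (1 - s ^ 2) ^ 2 * (1 / r - 1) ^ 2 =
        (d.a : ℝ) * ((t - s) / s - (1 - s ^ 2) * (1 / r - 1)) ^ 2 := by
      rw [polePot]; field_simp; ring
    nlinarith [mul_nonneg ha.le (sq_nonneg ((t - s) / s - (1 - s ^ 2) * (1 / r - 1)))]
  obtain ⟨p5, p6⟩ := dev_parts hd hp h hE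
  have p7 : -(((d.G : ℝ) + (1 + 1 / (d.geo.m0 : ℝ)) + 2 * d.th * ((1 + 3 / (d.geo.m0 : ℝ))) + |(d.l1 : ℝ)| +
      (2 * |(d.l1 : ℝ)| + |(d.l0 : ℝ)|) / (d.geo.m0 : ℝ)) * M) ≤ s * slopeT p d s * (t - s) := by
    have hS := slopeT_abs hd hp hs
    have : |s * slopeT p d s * (t - s)| ≤ |slopeT p d s| := by
      rw [mul_comm s, mul_assoc, abs_mul]
      exact mul_le_of_le_one_right (abs_nonneg _) (abs_mul_sub_le hs ht)
    linarith [(abs_le.1 (this.trans hS)).1]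
  have p8 : 10 * nuT p d ≤ 10 * ((d.th : ℝ) + 1 / 8 + 3 / 2 / (d.geo.m0 : ℝ)) / (d.geo.m0 : ℝ) * M := by
    rw [div_mul_eq_mul_div, le_div_iff₀ (by linarith)]
    exact mul_le_mul (by linarith) (hp.trans hM0) (by linarith) (by linarith)
  simp only [← hU] at p5 p6
  simp only [tailConst, ← hU]
  linarith

end Vale.Agent.P237.Petty.Cor.Top
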