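import Vale.Agent.P237.Petty.Cor.Top.Cert

/-!
# P237: the cell from twenty-seven halves to sixteen, for `100 ≤ p + 2`
-/

namespace Vale.Agent.P237.Petty.Cor.Top

open Set P100.Bernstein

/-- The cell from twenty-seven halves to sixteen, for `100 ≤ p + 2`. -/
def low14 : Data where
  geo := geo100
  th := 1259 / 1000
  g := 65 / 100
  a := 852 / 1000
  l0 := -122 / 100
  l1 := 525 / 100
  v1 := 102 / 100
  ev := 1479 / 1000
  r00 := 207 / 1000
  r10 := -1342 / 1000
  r20 := 2695 / 1000
  r30 := 515 / 10000
  r21 := 0
  r31 := 0
  r32 := 47 / 10
  r34 := 43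

theorem low14_leadA : certify true (leadA ofRat low14 (.var 0) (.var 1)) (boxA low14) .leaf =
  true := by
  decide +kernel

theorem low14_leadB : certify true (leadB ofRat low14 (.var 0) (.var 1)) (boxB low14) .leaf =
  true := by
  decide +kernel

theorem low14_nearA (i : Side) :
    certify false (nearA ofRat low14 (slopeE low14 i) (.var 0) (.var 1)) (boxA low14)
      (.split 0 .leaf .leaf) =
      true := by
  cases i <;> decide +kernel

theorem low14_nearB (i : Side) :
    certify false (nearB ofRat low14 (slopeE low14 i) (.var 0) (.var 1)) (boxB low14)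
      .leaf =
      true := by
  cases i <;> decide +kernel

theorem low14_farA (i : Side) :
    certify false (farA ofRat low14 (slopeE low14 i) (.var 0) (.var 1) (.var 2)) (boxFarA
      low14)
      (.split 0 (.split 2 .leaf (.split 1 .leaf (.split 0 .leaf .leaf))) .leaf) =
      true := by
  cases i <;> decide +kernel

theorem low14_farB (i : Side) :
    certify false (farB ofRat low14 (slopeE low14 i) (.var 0) (.var 1) (.var 2)) (boxFarB
      low14)
      .leaf =
      true := by
  cases i <;> decide +kernel

theorem low14_arcs :
    (arcExprs low14).all (fun e => certify false e [upTo low14.geo.z1] .leaf) = true := by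
  decide +kernel

theorem good_low14 : Good low14 where
  th_nonneg := by norm_num [low14]
  g_pos := by norm_num [low14]
  g_le := by norm_num [low14]
  a_pos := by norm_num [low14]
  v1_gt := by norm_num [low14]
  v1_le := by norm_num [low14]
  m0_ge := by norm_num [low14, geo100]
  z1_pos := by norm_num [low14, geo100]
  z1_lt := by norm_num [low14, geo100]
  xs_pos := by norm_num [low14, geo100]
  q_nonneg := by norm_num [low14, geo100]
  deg_ge := by norm_num [low14, geo100]
  hk_ge := by norm_num [low14, geo100]
  qs_ge := by norm_num [low14, geo100]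
  rs_ge := by norm_num [low14, geo100]
  arcs := arcs_of_certify low14_arcs
  side_le := by norm_num [low14, geo100, Data.side]
  gap := by norm_num [low14, geo100]
  r00 := by norm_num [low14]
  r10 := by norm_num [low14]
  r20 := by norm_num [low14]
  disc := by norm_num [low14]
  r30 := by norm_num [low14]
  r21 := by norm_num [low14]
  r31 := by norm_num [low14]
  r32 := by norm_num [low14]
  r34 := by norm_num [low14]
  leadA_pos := leadA_of_certify low14_leadA
  leadB_pos := leadB_of_certify low14_leadB
  nearA_nonneg := nearA_of_certify low14_nearA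
  nearB_nonneg := nearB_of_certify low14_nearB
  farA_nonneg := farA_of_certify low14_farA
  farB_nonneg := farB_of_certify low14_farB

theorem exp_le_low14 : Real.exp (16 / 100) * (low14.geo.hk : ℝ) ≤ (low14.ev : ℝ) := by
  have h2 : Real.exp (16 / 100 : ℝ) ≤ 117360 / 100000 := by
    have h := Real.exp_bound' (x := (16 / 100 : ℝ)) (by norm_num) (by norm_num) (n := 6) (by
      norm_num)
    refine h.trans ?_
    norm_num [Finset.sum_range_succ, Nat.factorial]
  refine le_trans (mul_le_mul_of_nonneg_right h2 (by norm_num [low14, geo100])) ?_
  norm_num [low14, geo100]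

/-- The cell from twenty-seven halves to sixteen. -/
theorem corCell_low14 {p : ℕ} (hp : 98 ≤ p) :
    CorCell p (27 / 2 / ((p : ℝ) + 2)) (16 / ((p : ℝ) + 2)) := by
  have hp' : (98 : ℝ) ≤ p := by exact_mod_cast hp
  refine fun ell hl => corCell_of_data good_low14 (by norm_num [low14, geo100]; linarith) (by norm_num)
    exp_le_low14 ?_ ell ⟨hl.1, hl.2.trans (by rw [div_le_iff₀ (by positivity)]; linarith)⟩
  have h0 : 0 ≤ tailConst low14 := tailConst_nonneg good_low14
  have h1 : tailConst low14 ≤ 25 := by norm_num [tailConst, devConst, low14, geo100, Data.G,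
    abs_of_neg]
  have h : tailMoment low14 ≤ 1130 / 100000 := by
    norm_num [tailMoment, tailProd, low14, geo100, Finset.prod_range_succ]
  have h2 : tailConst low14 * tailMoment low14 ≤ 25 * (1130 / 100000) :=
    (mul_le_mul_of_nonneg_left h h0).trans (mul_le_mul_of_nonneg_right h1 (by norm_num))
  norm_num [low14, geo100] at h2 ⊢
  linarith

end Vale.Agent.P237.Petty.Cor.Top
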