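import Vale.Agent.P237.Petty.Cor.Top.Tail

/-!
# P237: a cell for large values from its constants
-/

namespace Vale.Agent.P237.Petty.Cor.Top

open MeasureTheory Set intervalIntegral
open Ident (half)
open Huge (moment)

variable {p : ℕ} {d : Data}

/-- The remainder of the cell. -/
noncomputable def rest (p : ℕ) (d : Data) (s : ℝ) : ℝ :=
  (1 / ((p : ℝ) + 1)) ^ 2 * rho toReal d (s ^ 2) (((p : ℝ) + 1) * s ^ 2) 1 +
    tailConst d * (((p : ℝ) + 1) / arc s ^ 4) * (s ^ 2 / (d.geo.z1 : ℝ)) ^ d.geo.deg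

/-- Below the product of the denominators of the moment, over `(p + 1) ^ 3`. -/
noncomputable def tailProd (d : Data) : ℝ :=
  ∏ i ∈ Finset.range d.geo.deg,
    if i < 3 then ((d.geo.m0 : ℝ) - 1) / (d.geo.m0 : ℝ) else (d.geo.m0 : ℝ) - 1 + 2 * (i : ℝ)

/-- The factor of the crude part in the mean. -/
noncomputable def tailMoment (d : Data) : ℝ :=
  (∏ i ∈ Finset.range d.geo.deg, (2 * (i : ℝ) + 1)) *
      ((d.geo.m0 : ℝ) * ((d.geo.m0 : ℝ) + 1) / (((d.geo.m0 : ℝ) - 2) * (d.geo.m0 : ℝ))) / ((d.geo.z1 : ℝ) ^ d.geo.deg * tailProd d)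

theorem tailConst_nonneg (hd : Good d) : 0 ≤ tailConst d := by
  have := hd.th_nonneg
  have := hd.a_pos
  have := hd.m0_ge
  have := hd.qs_ge.1
  have := hd.rs_ge.1
  have : 0 ≤ (d.ev : ℝ) := by linarith [hd.v1_gt, hd.v1_le]
  have : 0 ≤ (d.G : ℝ) := by rw [G_eq]; linarith
  unfold tailConst devConst
  positivity

theorem arc_pow_mul_rest (hp : 4 ≤ p) (d : Data) (s : ℝ) :
    arc s ^ (p + 1) * rest p d s =
      (1 / ((p : ℝ) + 1)) ^ 2 * (arc s ^ (p + 1) * rho toReal d (s ^ 2) (((p : ℝ) + 1) * s ^ 2) 1) +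
        tailConst d * ((p : ℝ) + 1) / (d.geo.z1 : ℝ) ^ d.geo.deg * (arc s ^ (p - 3) * s ^ (2 * d.geo.deg)) := by
  rw [rest, show p + 1 = p - 3 + 4 by omega, pow_add, mul_add, div_pow (s ^ 2) (d.geo.z1 : ℝ), pow_mul s 2 d.geo.deg]
  rcases eq_or_ne (arc s) 0 with h | h
  · simp [h, show p - 3 ≠ 0 by omega]
  · field_simp

theorem continuous_arc_pow_rho (p k : ℕ) (d : Data) :
    Continuous fun s => arc s ^ k * rho toReal d (s ^ 2) (((p : ℝ) + 1) * s ^ 2) 1 := by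
  have := continuous_arc
  simp only [rho, toReal]
  fun_prop

theorem continuous_arc_pow_rest (hp : 4 ≤ p) (d : Data) :
    Continuous fun s => arc s ^ (p + 1) * rest p d s := by
  have := continuous_arc
  simp only [arc_pow_mul_rest (show 4 ≤ p by omega)]
  exact ((continuous_arc_pow_rho p (p + 1) d).const_mul _).add
    ((continuous_const).mul ((continuous_arc.pow _).mul (continuous_pow _)))

theorem moment_le' (k j : ℕ) {m : ℝ} (hm : 0 < m) (hk : m ≤ (k : ℝ) + 3) :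
    m ^ j * moment k j ≤ (∏ i ∈ Finset.range j, (2 * (i : ℝ) + 1)) * half k :=
  (mul_le_mul_of_nonneg_right (pow_le_pow_left₀ hm.le hk j) (moment_nonneg k j)).trans
    (moment_le k j)

/-- `m ^ 3 / (m + 3) ^ 5` decreases from thirty on. -/
theorem cube_fifth_le {n m : ℝ} (hn : 30 ≤ n) (h : n ≤ m) :
    m ^ 3 * (n + 3) ^ 5 ≤ n ^ 3 * (m + 3) ^ 5 := by
  have h9 : 900 ≤ m * n := le_trans (by norm_num) (mul_le_mul (hn.trans h) hn (by norm_num) (by linarith))
  have hA : m ^ 2 * (n + 3) ^ 3 ≤ n ^ 2 * (m + 3) ^ 3 := by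
    have hs : 0 ≤ m * n * (m * n - 27) - 27 * (m + n) := by
      have := mul_le_mul_of_nonneg_right h9 (show 0 ≤ m * n - 27 by linarith)
      have h1 : m ≤ m * n := le_mul_of_one_le_right (by linarith) (by linarith)
      have h2 : n ≤ m * n := le_mul_of_one_le_left (by linarith) (by linarith)
      linarith
    linarith [mul_nonneg (sub_nonneg.2 h) hs]
  have hB : m * (n + 3) ^ 2 ≤ n * (m + 3) ^ 2 := by
    linarith [mul_nonneg (sub_nonneg.2 h) (show 0 ≤ m * n - 9 by linarith)]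
  have hn0 : 0 ≤ n := by linarith
  have hm0 : 0 ≤ m := by linarith
  linarith [mul_le_mul hA hB (by positivity) (by positivity)]

/-- The mean of the polynomial part. -/
theorem integral_rho_le (hd : Good d) (hp : (d.geo.m0 : ℝ) ≤ (p : ℝ) + 1) :
    ∫ s in (0 : ℝ)..1, arc s ^ (p + 1) * rho toReal d (s ^ 2) (((p : ℝ) + 1) * s ^ 2) 1 ≤
      ((d.r00 : ℝ) + (d.geo.m0 : ℝ) / ((d.geo.m0 : ℝ) + 3) * d.r10 + 3 * d.r20 + 15 * d.r30 +
        (15 * d.r21 + 105 * d.r31) / (d.geo.m0 : ℝ) + 945 * d.r32 * ((d.geo.m0 : ℝ) ^ 3 / ((d.geo.m0 : ℝ) + 3) ^ 5) +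
          135135 * d.r34 * ((d.geo.m0 : ℝ) ^ 3 / ((d.geo.m0 : ℝ) + 3) ^ 7)) * half (p + 1) := by
  have hm30 := hd.m0_ge
  set m := (p : ℝ) + 1 with hm
  have hm0 : 0 < m := by rw [hm]; positivity
  have e : ∫ s in (0 : ℝ)..1, arc s ^ (p + 1) * rho toReal d (s ^ 2) (m * s ^ 2) 1 =
      ∑ j ∈ Finset.range 8, ([(d.r00 : ℝ), d.r10 * m, d.r20 * m ^ 2,
        d.r30 * m ^ 3 + d.r21 * m ^ 2, d.r31 * m ^ 3, d.r32 * m ^ 3, 0, d.r34 * m ^ 3].getD j 0) * moment (p + 1) j := by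
    rw [← integral_evenPoly]
    refine intervalIntegral.integral_congr fun s _ => ?_
    simp only [Finset.sum_range_succ, Finset.sum_range_zero, rho, toReal, List.getD_cons_zero,
      List.getD_cons_succ]
    push_cast
    ring
  rw [e]
  simp only [Finset.sum_range_succ, Finset.sum_range_zero, List.getD_cons_zero, List.getD_cons_succ,
    zero_add, Huge.moment_zero]
  have hk : m ≤ ((p + 1 : ℕ) : ℝ) + 3 := by push_cast; linarith
  have hH := Ident.half_pos (p + 1)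
  have hM0 := fun j => moment_nonneg (p + 1) j
  have m1 : (d.geo.m0 : ℝ) / ((d.geo.m0 : ℝ) + 3) * half (p + 1) ≤ m * moment (p + 1) 1 := by
    have h := moment_eq (p + 1) 1
    simp only [Finset.prod_range_one] at h
    push_cast at h
    rw [div_mul_eq_mul_div, div_le_iff₀ (by linarith)]
    nlinarith [mul_le_mul_of_nonneg_right hp (hM0 1)]
  have f2 := moment_le' (p + 1) 2 hm0 hk
  have f3 := moment_le' (p + 1) 3 hm0 hk
  have f4 := moment_le' (p + 1) 4 hm0 hk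
  have f5 := moment_le' (p + 1) 5 hm0 hk
  simp only [Finset.prod_range_succ, Finset.prod_range_zero] at f2 f3 f4 f5
  push_cast at f2 f3 f4 f5
  norm_num at f2 f3 f4 f5
  have g1 := mul_le_mul_of_nonpos_left m1 hd.r10
  have g2 := mul_le_mul_of_nonneg_left f2 hd.r20.le
  have g3 := mul_le_mul_of_nonneg_left f3 hd.r30
  have g21 : (d.r21 : ℝ) * m ^ 2 * moment (p + 1) 3 ≤ d.r21 * (15 / (d.geo.m0 : ℝ) * half (p + 1)) := by
    rw [mul_assoc]
    refine mul_le_mul_of_nonneg_left ?_ hd.r21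
    rw [div_mul_eq_mul_div, le_div_iff₀ (by linarith)]
    nlinarith [mul_le_mul_of_nonneg_right (show (d.geo.m0 : ℝ) ≤ m from hp)
      (mul_nonneg (sq_nonneg m) (hM0 3))]
  have g31 : (d.r31 : ℝ) * m ^ 3 * moment (p + 1) 4 ≤ d.r31 * (105 / (d.geo.m0 : ℝ) * half (p + 1)) := by
    rw [mul_assoc]
    refine mul_le_mul_of_nonneg_left ?_ hd.r31
    rw [div_mul_eq_mul_div, le_div_iff₀ (by linarith)]
    nlinarith [mul_le_mul_of_nonneg_right (show (d.geo.m0 : ℝ) ≤ m from hp)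
      (mul_nonneg (pow_nonneg hm0.le 3) (hM0 4))]
  have g32 : (d.r32 : ℝ) * m ^ 3 * moment (p + 1) 5 ≤
      d.r32 * (945 * (d.geo.m0 : ℝ) ^ 3 / ((d.geo.m0 : ℝ) + 3) ^ 5 * half (p + 1)) := by
    rw [mul_assoc]
    refine mul_le_mul_of_nonneg_left ?_ hd.r32
    have hAB := cube_fifth_le hm30 hp
    have h5 : (m + 3) ^ 5 * moment (p + 1) 5 ≤ 945 * half (p + 1) := by
      have := moment_le (p + 1) 5
      simp only [Finset.prod_range_succ, Finset.prod_range_zero] at this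
      push_cast at this
      norm_num at this
      simpa [hm] using this
    rw [div_mul_eq_mul_div, le_div_iff₀ (pow_pos (by linarith) 5)]
    have := mul_le_mul_of_nonneg_right hAB (hM0 5)
    have := mul_le_mul_of_nonneg_left h5 (show 0 ≤ (d.geo.m0 : ℝ) ^ 3 by positivity)
    linarith
  have g34 : (d.r34 : ℝ) * m ^ 3 * moment (p + 1) 7 ≤
      d.r34 * (135135 * (d.geo.m0 : ℝ) ^ 3 / ((d.geo.m0 : ℝ) + 3) ^ 7 * half (p + 1)) := by
    rw [mul_assoc]
    refine mul_le_mul_of_nonneg_left ?_ hd.r34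
    have hAB := mul_le_mul (cube_fifth_le hm30 hp)
      (pow_le_pow_left₀ (by linarith) (show (d.geo.m0 : ℝ) + 3 ≤ m + 3 by linarith) 2)
      (sq_nonneg _) (by positivity)
    have h7 : (m + 3) ^ 7 * moment (p + 1) 7 ≤ 135135 * half (p + 1) := by
      have := moment_le (p + 1) 7
      simp only [Finset.prod_range_succ, Finset.prod_range_zero] at this
      push_cast at this
      norm_num at this
      simpa [hm] using this
    rw [div_mul_eq_mul_div, le_div_iff₀ (pow_pos (by linarith) 7)]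
    have := mul_le_mul_of_nonneg_right hAB (hM0 7)
    have := mul_le_mul_of_nonneg_left h7 (show 0 ≤ (d.geo.m0 : ℝ) ^ 3 by positivity)
    linarith
  have e : ((d.r00 : ℝ) + (d.geo.m0 : ℝ) / ((d.geo.m0 : ℝ) + 3) * d.r10 + 3 * d.r20 + 15 * d.r30 +
      (15 * d.r21 + 105 * d.r31) / (d.geo.m0 : ℝ) + 945 * d.r32 * ((d.geo.m0 : ℝ) ^ 3 / ((d.geo.m0 : ℝ) + 3) ^ 5) +
      135135 * d.r34 * ((d.geo.m0 : ℝ) ^ 3 / ((d.geo.m0 : ℝ) + 3) ^ 7)) * half (p + 1) =
      d.r00 * half (p + 1) + d.r10 * ((d.geo.m0 : ℝ) / ((d.geo.m0 : ℝ) + 3) * half (p + 1)) +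
        d.r20 * (3 * half (p + 1)) + d.r30 * (15 * half (p + 1)) +
        d.r21 * (15 / (d.geo.m0 : ℝ) * half (p + 1)) + d.r31 * (105 / (d.geo.m0 : ℝ) * half (p + 1)) +
        d.r32 * (945 * (d.geo.m0 : ℝ) ^ 3 / ((d.geo.m0 : ℝ) + 3) ^ 5 * half (p + 1)) +
        d.r34 * (135135 * (d.geo.m0 : ℝ) ^ 3 / ((d.geo.m0 : ℝ) + 3) ^ 7 * half (p + 1)) := by ring
  rw [e]
  linarith

theorem prod_ite_three (m : ℝ) : ∀ J : ℕ, 3 ≤ J →
    ∏ j ∈ Finset.range J, (if j < 3 then m else 1) = m ^ 3 := by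
  refine Nat.le_induction ?_ fun J hJ ih => ?_
  · simp [Finset.prod_range_succ]
    ring
  · rw [Finset.prod_range_succ, ih, if_neg (by omega), mul_one]

theorem tailProd_pos (hd : Good d) : 0 < tailProd d := by
  have := hd.m0_ge
  refine Finset.prod_pos fun j _ => ?_
  split_ifs
  · exact div_pos (by linarith) (by linarith)
  · linarith [(Nat.cast_nonneg j : (0 : ℝ) ≤ j)]

/-- The mean of the crude part. -/
theorem integral_tail_le (hd : Good d) (hp : (d.geo.m0 : ℝ) ≤ (p : ℝ) + 1) :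
    ((p : ℝ) + 1) ^ 3 / (d.geo.z1 : ℝ) ^ d.geo.deg * moment (p - 3) d.geo.deg ≤ tailMoment d * half (p + 1) := by
  have hm30 := hd.m0_ge
  have h4 := four_le_of_m0 hd hp
  obtain ⟨i, rfl⟩ : ∃ i, p = i + 3 := ⟨p - 3, by omega⟩
  rw [Nat.add_sub_cancel]
  push_cast at hp ⊢
  set m := (i : ℝ) + 3 + 1 with hm
  have hm0 : 0 < m := by rw [hm]; positivity
  have hT := tailProd_pos hd
  have h := moment_eq i d.geo.deg
  have hP : m ^ 3 * tailProd d ≤ ∏ j ∈ Finset.range d.geo.deg, ((i : ℝ) + 2 * j + 3) := by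
    rw [← prod_ite_three m _ hd.deg_ge, tailProd, ← Finset.prod_mul_distrib]
    refine Finset.prod_le_prod (fun j _ => ?_) fun j _ => ?_
    · split_ifs
      · exact mul_nonneg hm0.le (div_nonneg (by linarith) (by linarith))
      · linarith [(Nat.cast_nonneg j : (0 : ℝ) ≤ j)]
    · have hj : (0 : ℝ) ≤ j := Nat.cast_nonneg j
      split_ifs
      · rw [mul_div_assoc', div_le_iff₀ (by linarith)]
        nlinarith [mul_nonneg hj (show 0 ≤ (d.geo.m0 : ℝ) by linarith)]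
      · linarith
  have hhalf : half i ≤ (d.geo.m0 : ℝ) * ((d.geo.m0 : ℝ) + 1) / (((d.geo.m0 : ℝ) - 2) * (d.geo.m0 : ℝ)) * half (i + 3 + 1) := by
    refine (half_le_shift i).trans ?_
    refine (mul_le_mul_of_nonneg_left (half_le_shift (i + 2)) (by positivity)).trans ?_
    rw [← mul_assoc, show i + 2 + 2 = i + 3 + 1 by ring]
    refine mul_le_mul_of_nonneg_right ?_ (Ident.half_pos _).le
    push_cast
    rw [mul_div_mul_comm]
    refine mul_le_mul ?_ ?_ (by positivity) (div_nonneg (by linarith) (by linarith))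
    · rw [div_le_div_iff₀ (by positivity) (by linarith)]
      linarith
    · rw [div_le_div_iff₀ (by positivity) (by linarith)]
      linarith
  have hN : 0 ≤ ∏ j ∈ Finset.range d.geo.deg, (2 * (j : ℝ) + 1) := Finset.prod_nonneg fun j _ => by positivity
  have h2 := ((mul_le_mul_of_nonneg_right hP (moment_nonneg i d.geo.deg)).trans h.le).trans
    (mul_le_mul_of_nonneg_left hhalf hN)
  rw [tailMoment]
  have hz : 0 < (d.geo.z1 : ℝ) ^ d.geo.deg := pow_pos hd.z1_pos _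
  generalize (d.geo.z1 : ℝ) ^ d.geo.deg = z1 at *
  generalize ∏ j ∈ Finset.range d.geo.deg, (2 * (j : ℝ) + 1) = N at *
  generalize (d.geo.m0 : ℝ) * ((d.geo.m0 : ℝ) + 1) / (((d.geo.m0 : ℝ) - 2) * (d.geo.m0 : ℝ)) = c at *
  rw [div_mul_eq_mul_div, div_mul_eq_mul_div, div_le_div_iff₀ hz (mul_pos hz hT)]
  linarith [mul_le_mul_of_nonneg_left h2 hz.le]

/-- A cell from its constants. -/
theorem corCell_of_data (hd : Good d) (hp : (d.geo.m0 : ℝ) ≤ (p : ℝ) + 1) {W0 hi : ℝ} (hW : 0 ≤ W0)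
    (hE : Real.exp hi * (d.geo.hk : ℝ) ≤ d.ev)
    (hmean : (d.r00 : ℝ) + (d.geo.m0 : ℝ) / ((d.geo.m0 : ℝ) + 3) * d.r10 + 3 * d.r20 + 15 * d.r30 +
        (15 * d.r21 + 105 * d.r31) / (d.geo.m0 : ℝ) + 945 * d.r32 * ((d.geo.m0 : ℝ) ^ 3 / ((d.geo.m0 : ℝ) + 3) ^ 5) +
          135135 * d.r34 * ((d.geo.m0 : ℝ) ^ 3 / ((d.geo.m0 : ℝ) + 3) ^ 7) + tailConst d * tailMoment d ≤
      W0 * (3 / 4 - 3 / (d.geo.m0 : ℝ)) * ((d.geo.m0 : ℝ) / ((d.geo.m0 : ℝ) + 1)) ^ 2) :
    CorCell p (W0 / ((p : ℝ) + 2)) hi := by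
  have hm30 := hd.m0_ge
  have hp1 : 1 ≤ p := one_le_of_m0 hd hp
  have h4 := four_le_of_m0 hd hp
  have hG : 0 < (d.G : ℝ) := by rw [G_eq]; linarith [hd.th_nonneg]
  have hnu : 0 ≤ nuT p d := add_nonneg (nuS_nonneg (by omega)) hd.th_nonneg
  have hc := continuous_arc
  refine corCell_of_bridge hp1 (g := (d.g : ℝ)) (k := linePot p d) (k' := linePot' p d)
    (β := polePot d) (β' := polePot' d) (B := fun s => -(d.a : ℝ) * (arc s ^ (p + 1) * (1 - s ^ 2)))
    (M := fun _ => 0) (R := rest p d) (gam := gamT p d) (mul_pos hG (by positivity)) hnu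
    (fun s hs => hasDerivAt_linePot hs) (fun s hs => hasDerivAt_polePot hs) ?_
    (by fun_prop) (fun s hs => ?_) (by simp only [mul_zero]; exact continuousOn_const)
    (continuous_arc_pow_rest (by omega) d).continuousOn ?_ ?_ ?_
  · have e : (fun s => arc s ^ (p + 1) * linePot p d s) = fun s =>
        -((d.G : ℝ) * Ident.b0 p) * arc s ^ p +
          arc s ^ (p + 1) * ((d.l0 : ℝ) / ((p : ℝ) + 1) + (d.l1 : ℝ) * s ^ 2) := by
      funext s
      rcases eq_or_ne (arc s) 0 with h | h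
      · simp [linePot, h, show p ≠ 0 by omega]
      · rw [linePot]; field_simp; ring
    rw [e]
    fun_prop
  · have := hs.1.ne'
    rw [polePot]
    field_simp
  · have hmu := Lift.muMin_pos hp1
    have := Ident.half_pos (p + 1)
    simp only [mul_zero, intervalIntegral.integral_zero]
    positivity
  · simp only [mul_zero, intervalIntegral.integral_zero, sub_zero]
    have i1 := ((continuous_arc_pow_rho p (p + 1) d).intervalIntegrable (μ := volume) 0 1).const_mul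
      ((1 / ((p : ℝ) + 1)) ^ 2)
    have i2 := (Huge.integrable_moment (p - 3) d.geo.deg 0 1).const_mul
      (tailConst d * ((p : ℝ) + 1) / (d.geo.z1 : ℝ) ^ d.geo.deg)
    rw [intervalIntegral.integral_congr fun s _ => arc_pow_mul_rest (show 4 ≤ p by omega) d s,
      intervalIntegral.integral_add i1 i2, intervalIntegral.integral_const_mul,
      intervalIntegral.integral_const_mul]
    have hm : (0 : ℝ) < (p : ℝ) + 1 := by positivity
    refine le_of_mul_le_mul_left ?_ (pow_pos hm 2)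
    have t1 := integral_rho_le hd hp
    have t2 := mul_le_mul_of_nonneg_left (integral_tail_le hd hp) (tailConst_nonneg hd)
    have e1 : ((p : ℝ) + 1) ^ 2 * ((1 / ((p : ℝ) + 1)) ^ 2 *
          (∫ s in (0 : ℝ)..1, arc s ^ (p + 1) * rho toReal d (s ^ 2) (((p : ℝ) + 1) * s ^ 2) 1) +
        tailConst d * ((p : ℝ) + 1) / (d.geo.z1 : ℝ) ^ d.geo.deg *
          ∫ s in (0 : ℝ)..1, arc s ^ (p - 3) * s ^ (2 * d.geo.deg)) =
        (∫ s in (0 : ℝ)..1, arc s ^ (p + 1) * rho toReal d (s ^ 2) (((p : ℝ) + 1) * s ^ 2) 1) +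
          tailConst d * (((p : ℝ) + 1) ^ 3 / (d.geo.z1 : ℝ) ^ d.geo.deg * moment (p - 3) d.geo.deg) := by
      rw [moment]
      generalize (d.geo.z1 : ℝ) ^ d.geo.deg = z1
      field_simp
    have e2 : ((p : ℝ) + 1) ^ 2 *
        (W0 / ((p : ℝ) + 2) * (half (p + 1) * Ident.muMin p / ((p : ℝ) + 2))) =
        W0 * Ident.muMin p * (((p : ℝ) + 1) / ((p : ℝ) + 2)) ^ 2 * half (p + 1) := by
      field_simp
    rw [e1, e2]
    have hmu : 3 / 4 - 3 / (d.geo.m0 : ℝ) ≤ Ident.muMin p := by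
      rw [Centre.muMin_eq]
      refine le_trans ?_ (LargeN.le_muMin p hp1)
      linarith [div_le_div_of_nonneg_left (show (0 : ℝ) ≤ 3 by norm_num) (show 0 < (d.geo.m0 : ℝ) by linarith) hp]
    have hmu0 : 0 ≤ 3 / 4 - 3 / (d.geo.m0 : ℝ) := by
      rw [sub_nonneg, div_le_iff₀ (by linarith)]
      linarith
    have hq : ((d.geo.m0 : ℝ) / ((d.geo.m0 : ℝ) + 1)) ^ 2 ≤ (((p : ℝ) + 1) / ((p : ℝ) + 2)) ^ 2 :=
      pow_le_pow_left₀ (by positivity)
        (by rw [div_le_div_iff₀ (by linarith) (by positivity)]; linarith) 2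
    have h3 := mul_le_mul_of_nonneg_right (hmean.trans (mul_le_mul (mul_le_mul_of_nonneg_left hmu hW)
      hq (sq_nonneg _) (mul_nonneg hW (hmu0.trans hmu)))) (Ident.half_pos (p + 1)).le
    linarith
  · intro ell hl s t a r q h
    have hs := h.state.s_mem
    have hEl : Real.exp ell * (d.geo.hk : ℝ) ≤ (d.ev : ℝ) :=
      (mul_le_mul_of_nonneg_right (Real.exp_le_exp.2 hl.2) (by linarith [hd.hk_ge.1])).trans hE
    have hm : (0 : ℝ) ≤ (p : ℝ) + 1 := by positivity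
    have hT := tailConst_nonneg hd
    have hρ := hd.rho_nonneg (z := s ^ 2) (y := ((p : ℝ) + 1) * s ^ 2) (sq_nonneg s) (by positivity)
    have hM : 0 ≤ tailConst d * (((p : ℝ) + 1) / arc s ^ 4) :=
      mul_nonneg hT (div_nonneg hm (pow_nonneg (Real.sqrt_nonneg _) 4))
    rw [rest, sub_zero]
    rcases le_total (s ^ 2) (d.geo.z1 : ℝ) with hz | hz
    · have hb := bulk_ge hd hp h hEl hz
      have := mul_nonneg hM (pow_nonneg (div_nonneg (sq_nonneg s) hd.z1_pos.le) d.geo.deg)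
      linarith
    · have hb := tail_ge hd hp h hEl
      have h1 : 1 ≤ (s ^ 2 / (d.geo.z1 : ℝ)) ^ d.geo.deg := one_le_pow₀ ((one_le_div hd.z1_pos).2 hz)
      have := mul_le_mul_of_nonneg_left h1 hM
      have := mul_nonneg (sq_nonneg (1 / ((p : ℝ) + 1))) hρ
      linarith

end Vale.Agent.P237.Petty.Cor.Top
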