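import Vale.Agent.P237.Petty.Cor.Top.Cell

/-!
# P237: the claims of a cell from the kernel check
-/

namespace Vale.Agent.P237.Petty.Cor.Top

open Set P100.Bernstein

/-- A slope bound as an expression. -/
def slopeE (d : Data) : Side → Expr → Expr → Expr → Expr → Expr
  | .lo => slopeLo ofRat d
  | .hi => slopeHi ofRat d

theorem eval_ofRat (x : List ℝ) (q : ℚ) : (ofRat q).eval x = toReal q := by
  simp [ofRat, toReal, Rat.cast_def]

/-- The interval from zero to a rational. -/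
def upTo (q : ℚ) : Iv := ⟨0, q.num, q.den⟩

/-- The box of the first chart. -/
def boxA (d : Data) : List Iv := [upTo (d.geo.xs ^ 2), upTo (1 / d.geo.m0)]

/-- The box of the second chart. -/
def boxB (d : Data) : List Iv := [upTo d.geo.z1, upTo (1 / d.geo.xs ^ 2)]

/-- The box of the sign claim in the first chart. -/
def boxFarA (d : Data) : List Iv := [upTo d.geo.xs, upTo (1 / d.geo.m0), ⟨0, 1, 1⟩]

/-- The box of the sign claim in the second chart. -/
def boxFarB (d : Data) : List Iv := [upTo d.geo.z1, upTo (1 / d.geo.xs), ⟨0, 1, 1⟩]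

/-- The univariate bounds of the powers of the half circle and of `1 / (1 - z)`. -/
def arcExprs (d : Data) : List Expr :=
  let z : Expr := .var 0
  let one : Expr := ofRat 1
  [invArc ofRat d z ^ 2 * (one - z) - one,
   one - (one + z * cubeLo ofRat z) ^ 2 * (one - z) ^ 3,
   (one + z * cubeHi ofRat d z) ^ 2 * (one - z) ^ 3 - one,
   (one + z + ofRat d.geo.q2 * z ^ 2) * (one - z) - one]

/-- The subdivision of the sign claim in the first chart. -/
def treeFarA : Tree := .split 0 (.split 2 .leaf (.split 1 .leaf (.split 0 .leaf .leaf))) .leaf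

theorem mem_upTo {q : ℚ} {x : ℝ} (hx : x ∈ Icc (0 : ℝ) (q : ℝ)) :
    ((upTo q).lo : ℝ) ≤ (upTo q).den * x ∧ ((upTo q).den : ℝ) * x ≤ (upTo q).hi := by
  have h : (0 : ℝ) < q.den := Nat.cast_pos.2 q.pos
  refine ⟨by simpa [upTo] using mul_nonneg h.le hx.1, ?_⟩
  have h2 := hx.2
  rw [Rat.cast_def, le_div_iff₀' h] at h2
  simpa [upTo] using h2

theorem inBox_two {a b : ℚ} {x y : ℝ} (hx : x ∈ Icc (0 : ℝ) (a : ℝ)) (hy : y ∈ Icc (0 : ℝ) (b : ℝ)) :
    InBox [upTo a, upTo b] [x, y] :=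
  ⟨(mem_upTo hx).1, (mem_upTo hx).2, (mem_upTo hy).1, (mem_upTo hy).2, trivial⟩

theorem inBox_three {a b : ℚ} {x y w : ℝ} (hx : x ∈ Icc (0 : ℝ) (a : ℝ))
    (hy : y ∈ Icc (0 : ℝ) (b : ℝ)) (hw : w ∈ Icc (0 : ℝ) 1) :
    InBox [upTo a, upTo b, ⟨0, 1, 1⟩] [x, y, w] :=
  ⟨(mem_upTo hx).1, (mem_upTo hx).2, (mem_upTo hy).1, (mem_upTo hy).2, by simpa using hw.1,
    by simpa using hw.2, trivial⟩

variable {d : Data} {T : Tree}

theorem leadA_of_certify
    (hc : certify true (leadA ofRat d (.var 0) (.var 1)) (boxA d) T = true) :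
    ∀ y ∈ Icc (0 : ℝ) ((d.geo.xs : ℝ) ^ 2), ∀ e ∈ Icc (0 : ℝ) (1 / (d.geo.m0 : ℝ)), 0 < leadA toReal d y e := fun y hy e he => by
  have h := pos_of_certify hc (x := [y, e])
    (inBox_two (by push_cast; exact hy) (by push_cast; exact he))
  simpa [leadA, lead, numLo, shadeHi, invArc, sqr, eval_ofRat, Expr.eval] using h

theorem leadB_of_certify
    (hc : certify true (leadB ofRat d (.var 0) (.var 1)) (boxB d) T = true) :
    ∀ z ∈ Icc (0 : ℝ) (d.geo.z1 : ℝ), ∀ φ ∈ Icc (0 : ℝ) (1 / (d.geo.xs : ℝ) ^ 2), 0 < leadB toReal d z φ :=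
  fun z hz φ hφ => by
  have h := pos_of_certify hc (x := [z, φ])
    (inBox_two (by push_cast; exact hz) (by push_cast; exact hφ))
  simpa [leadB, lead, numLo, shadeHi, invArc, sqr, eval_ofRat, Expr.eval] using h

theorem nearA_of_certify
    (hc : ∀ i, certify false (nearA ofRat d (slopeE d i) (.var 0) (.var 1)) (boxA d) T = true) :
    ∀ i, ∀ y ∈ Icc (0 : ℝ) ((d.geo.xs : ℝ) ^ 2), ∀ e ∈ Icc (0 : ℝ) (1 / (d.geo.m0 : ℝ)),
      0 ≤ nearA toReal d (slope d i) y e := fun i y hy e he => by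
  have h := nonneg_of_certify (hc i) (x := [y, e])
    (inBox_two (by push_cast; exact hy) (by push_cast; exact he))
  cases i <;> simpa [nearA, near, lead, numLo, shadeHi, invArc, cubeLo, cubeHi, sqr, lin, rho,
    slope, slopeE, slopeLo, slopeHi, eval_ofRat, Expr.eval] using h

theorem nearB_of_certify
    (hc : ∀ i, certify false (nearB ofRat d (slopeE d i) (.var 0) (.var 1)) (boxB d) T = true) :
    ∀ i, ∀ z ∈ Icc (0 : ℝ) (d.geo.z1 : ℝ), ∀ φ ∈ Icc (0 : ℝ) (1 / (d.geo.xs : ℝ) ^ 2),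
      0 ≤ nearB toReal d (slope d i) z φ := fun i z hz φ hφ => by
  have h := nonneg_of_certify (hc i) (x := [z, φ])
    (inBox_two (by push_cast; exact hz) (by push_cast; exact hφ))
  cases i <;> simpa [nearB, near, lead, numLo, shadeHi, invArc, cubeLo, cubeHi, sqr, lin, rho,
    slope, slopeE, slopeLo, slopeHi, eval_ofRat, Expr.eval] using h

theorem farA_of_certify
    (hc : ∀ i, certify false (farA ofRat d (slopeE d i) (.var 0) (.var 1) (.var 2)) (boxFarA d) T = true) :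
    ∀ i, ∀ x ∈ Icc (0 : ℝ) (d.geo.xs : ℝ), ∀ e ∈ Icc (0 : ℝ) (1 / (d.geo.m0 : ℝ)), ∀ tau ∈ Icc (0 : ℝ) 1,
      0 ≤ farA toReal d (slope d i) x e tau := fun i x hx e he tau ht => by
  have h := nonneg_of_certify (hc i) (x := [x, e, tau])
    (inBox_three (by push_cast; exact hx) (by push_cast; exact he) ht)
  cases i <;> simpa [farA, far, between, top, numLo, shadeHi, invArc, cubeLo, cubeHi, sqr, lin,
    slope, slopeE, slopeLo, slopeHi, eval_ofRat, Expr.eval] using h

theorem farB_of_certify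
    (hc : ∀ i, certify false (farB ofRat d (slopeE d i) (.var 0) (.var 1) (.var 2)) (boxFarB d) T = true) :
    ∀ i, ∀ z ∈ Icc (0 : ℝ) (d.geo.z1 : ℝ), ∀ f ∈ Icc (0 : ℝ) (1 / (d.geo.xs : ℝ)), ∀ tau ∈ Icc (0 : ℝ) 1,
      0 ≤ farB toReal d (slope d i) z f tau := fun i z hz f hf tau ht => by
  have h := nonneg_of_certify (hc i) (x := [z, f, tau])
    (inBox_three (by push_cast; exact hz) (by push_cast; exact hf) ht)
  cases i <;> simpa [farB, far, between, top, numLo, shadeHi, invArc, cubeLo, cubeHi, sqr, lin,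
    slope, slopeE, slopeLo, slopeHi, eval_ofRat, Expr.eval] using h

theorem arcs_of_certify
    (hc : (arcExprs d).all (fun e => certify false e [upTo d.geo.z1] T) = true) :
    ∀ z ∈ Icc (0 : ℝ) (d.geo.z1 : ℝ), 1 ≤ invArc toReal d z ^ 2 * (1 - z) ∧
      (1 + z * cubeLo toReal z) ^ 2 * (1 - z) ^ 3 ≤ 1 ∧
        1 ≤ (1 + z * cubeHi toReal d z) ^ 2 * (1 - z) ^ 3 ∧
          1 ≤ (1 + z + (d.geo.q2 : ℝ) * z ^ 2) * (1 - z) := fun z hz => by
  simp only [List.all_eq_true, arcExprs, List.mem_cons, List.not_mem_nil, or_false, forall_eq_or_imp,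
    forall_eq] at hc
  obtain ⟨c1, c2, c3, c4⟩ := hc
  have hb : InBox [upTo d.geo.z1] [z] := ⟨(mem_upTo hz).1, (mem_upTo hz).2, trivial⟩
  have h1 := nonneg_of_certify c1 hb
  have h2 := nonneg_of_certify c2 hb
  have h3 := nonneg_of_certify c3 hb
  have h4 := nonneg_of_certify c4 hb
  simp [invArc, cubeLo, cubeHi, eval_ofRat, Expr.eval, toReal] at h1 h2 h3 h4 ⊢
  exact ⟨h1, h2, h3, h4⟩

end Vale.Agent.P237.Petty.Cor.Top
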