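import Vale.Agent.P237.Petty.Cor.Top.Bounds

/-!
# P237: the conditions on the constants of a cell

The polynomial claims are asked on two charts, `(y, e)` for moderate `y = (p + 1) s ^ 2` and
`(z, 1 / y)` beyond; both are the same homogeneous claim.
-/

namespace Vale.Agent.P237.Petty.Cor.Top

open Set

/-- A slope bound. -/
inductive Side | lo | hi

/-- The polynomial of a slope bound. -/
noncomputable def slope (d : Data) : Side → ℝ → ℝ → ℝ → ℝ → ℝ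
  | .lo => slopeLo toReal d
  | .hi => slopeHi toReal d

/-- The conditions on the constants. -/
structure Good (d : Data) : Prop where
  th_nonneg : 0 ≤ (d.th : ℝ)
  g_pos : 0 < (d.g : ℝ)
  g_le : (d.g : ℝ) ≤ 1
  a_pos : 0 < (d.a : ℝ)
  v1_gt : 1 < (d.v1 : ℝ)
  v1_le : (d.v1 : ℝ) ≤ d.ev
  m0_ge : 30 ≤ (d.geo.m0 : ℝ)
  z1_pos : 0 < (d.geo.z1 : ℝ)
  z1_lt : (d.geo.z1 : ℝ) < 1
  xs_pos : 0 < (d.geo.xs : ℝ)
  q_nonneg : 0 ≤ (d.geo.q1 : ℝ) ∧ 0 ≤ (d.geo.q2 : ℝ) ∧ 0 ≤ (d.geo.q3 : ℝ)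
  deg_ge : 3 ≤ d.geo.deg
  hk_ge : 1 ≤ (d.geo.hk : ℝ) ∧ 157085 / 100000 * (((d.geo.m0 : ℝ) + 2) / ((d.geo.m0 : ℝ) + 1)) ≤ (d.geo.hk : ℝ) ^ 2
  qs_ge : 0 ≤ (d.geo.qs : ℝ) ∧ ((d.geo.m0 : ℝ) + 2) / (d.geo.m0 : ℝ) ≤ (d.geo.qs : ℝ) ^ 2
  rs_ge : 0 ≤ (d.geo.rs : ℝ) ∧ 1 ≤ (d.geo.rs : ℝ) ^ 2 * (d.geo.m0 : ℝ)
  arcs : ∀ z ∈ Icc (0 : ℝ) (d.geo.z1 : ℝ), 1 ≤ invArc toReal d z ^ 2 * (1 - z) ∧
    (1 + z * cubeLo toReal z) ^ 2 * (1 - z) ^ 3 ≤ 1 ∧ 1 ≤ (1 + z * cubeHi toReal d z) ^ 2 * (1 - z) ^ 3 ∧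
      1 ≤ (1 + z + (d.geo.q2 : ℝ) * z ^ 2) * (1 - z)
  side_le : (d.side : ℝ) * (d.geo.z1 : ℝ) ≤ 2 * (1 - (d.geo.z1 : ℝ))
  gap : ((d.th : ℝ) + 1 / 8 + 3 / 2 / (d.geo.m0 : ℝ)) * (d.g : ℝ) ^ 2 * (((d.geo.m0 : ℝ) + 3) / (d.geo.m0 : ℝ)) < d.a
  r00 : 0 ≤ (d.r00 : ℝ)
  r10 : (d.r10 : ℝ) ≤ 0
  r20 : 0 < (d.r20 : ℝ)
  disc : (d.r10 : ℝ) ^ 2 ≤ 4 * d.r00 * d.r20
  r30 : 0 ≤ (d.r30 : ℝ)
  r21 : 0 ≤ (d.r21 : ℝ)
  r31 : 0 ≤ (d.r31 : ℝ)
  r32 : 0 ≤ (d.r32 : ℝ)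
  r34 : 0 ≤ (d.r34 : ℝ)
  leadA_pos : ∀ y ∈ Icc (0 : ℝ) ((d.geo.xs : ℝ) ^ 2), ∀ e ∈ Icc (0 : ℝ) (1 / (d.geo.m0 : ℝ)), 0 < leadA toReal d y e
  leadB_pos : ∀ z ∈ Icc (0 : ℝ) (d.geo.z1 : ℝ), ∀ φ ∈ Icc (0 : ℝ) (1 / (d.geo.xs : ℝ) ^ 2), 0 < leadB toReal d z φ
  nearA_nonneg : ∀ i, ∀ y ∈ Icc (0 : ℝ) ((d.geo.xs : ℝ) ^ 2), ∀ e ∈ Icc (0 : ℝ) (1 / (d.geo.m0 : ℝ)),
    0 ≤ nearA toReal d (slope d i) y e
  nearB_nonneg : ∀ i, ∀ z ∈ Icc (0 : ℝ) (d.geo.z1 : ℝ), ∀ φ ∈ Icc (0 : ℝ) (1 / (d.geo.xs : ℝ) ^ 2),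
    0 ≤ nearB toReal d (slope d i) z φ
  farA_nonneg : ∀ i, ∀ x ∈ Icc (0 : ℝ) (d.geo.xs : ℝ), ∀ e ∈ Icc (0 : ℝ) (1 / (d.geo.m0 : ℝ)),
    ∀ tau ∈ Icc (0 : ℝ) 1, 0 ≤ farA toReal d (slope d i) x e tau
  farB_nonneg : ∀ i, ∀ z ∈ Icc (0 : ℝ) (d.geo.z1 : ℝ), ∀ f ∈ Icc (0 : ℝ) (1 / (d.geo.xs : ℝ)),
    ∀ tau ∈ Icc (0 : ℝ) 1, 0 ≤ farB toReal d (slope d i) z f tau

variable {d : Data} (z e q Y F f w x S t : ℝ)

theorem toReal_one : toReal 1 = 1 := by simp [toReal]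

theorem lin_hom : lin toReal d (t * Y) (t * F) = t * lin toReal d Y F := by simp only [lin]; ring

theorem sqr_hom : sqr toReal d e (t * Y) (t * F) = t * sqr toReal d e Y F := by simp only [sqr]; ring

theorem lead_hom : lead toReal d z e (t * Y) (t * F) = t * lead toReal d z e Y F := by
  simp only [lead, sqr_hom]; ring

theorem slope_hom (i : Side) : slope d i z e (t * Y) (t * F) = t * slope d i z e Y F := by
  cases i <;> simp only [slope, slopeLo, slopeHi, lin_hom] <;> ring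

theorem rho_hom : rho toReal d z (t * Y) (t * F) = t ^ 3 * rho toReal d z Y F := by simp only [rho]; ring

theorem near_hom :
    near toReal d z e (t * Y) (t * F) (t * S) = t ^ 5 * near toReal d z e Y F S := by
  simp only [near, lead_hom, rho_hom, sqr_hom, lin_hom]; ring

theorem far_hom (ht : t ≠ 0) :
    far toReal d z e (q / t ^ 2) (t ^ 2 * Y) (t ^ 2 * F) (t * f) (t * w) (t ^ 2 * S) =
      t ^ 4 * far toReal d z e q Y F f w S := by
  simp only [far, lin_hom, sqr_hom]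
  field_simp

theorem top_hom : top toReal d z (t * x) (t * f) = t * top toReal d z x f := by simp only [top]; ring

variable {z e}

theorem Good.lead_pos (hd : Good d) {y : ℝ} (hy : 0 < y) (he : 0 ≤ e) (he1 : e ≤ 1 / (d.geo.m0 : ℝ))
    (hz : y * e ≤ (d.geo.z1 : ℝ)) : 0 < lead toReal d (y * e) e y (toReal 1) := by
  rcases le_total y ((d.geo.xs : ℝ) ^ 2) with h | h
  · exact hd.leadA_pos y ⟨hy.le, h⟩ e ⟨he, he1⟩
  · have h' := hd.leadB_pos (y * e) ⟨by positivity, hz⟩ (1 / y)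
      ⟨by positivity, one_div_le_one_div_of_le (pow_pos hd.xs_pos 2) h⟩
    simp only [leadB, toReal_one] at h'
    rw [toReal_one, show y * e * (1 / y) = e by field_simp] at *
    have := lead_hom (d := d) (y * e) e 1 (1 / y) y
    rw [mul_one, show y * (1 / y) = 1 by field_simp] at this
    rw [this]
    exact mul_pos hy h'

theorem Good.near_side (hd : Good d) (i : Side) {y : ℝ} (hy : 0 < y) (he : 0 ≤ e)
    (he1 : e ≤ 1 / (d.geo.m0 : ℝ)) (hz : y * e ≤ (d.geo.z1 : ℝ)) :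
    0 ≤ near toReal d (y * e) e y 1 (slope d i (y * e) e y 1) := by
  rcases le_total y ((d.geo.xs : ℝ) ^ 2) with h | h
  · have h' := hd.nearA_nonneg i y ⟨hy.le, h⟩ e ⟨he, he1⟩
    simpa only [nearA, toReal_one] using h'
  · have h' := hd.nearB_nonneg i (y * e) ⟨by positivity, hz⟩ (1 / y)
      ⟨by positivity, one_div_le_one_div_of_le (pow_pos hd.xs_pos 2) h⟩
    simp only [nearB, toReal_one] at h'
    rw [show y * e * (1 / y) = e by field_simp] at h'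
    have h1 := near_hom (d := d) (y * e) e 1 (1 / y) (slope d i (y * e) e 1 (1 / y)) y
    rw [← slope_hom, mul_one, show y * (1 / y) = 1 by field_simp] at h1
    rw [h1]
    positivity

theorem Good.far_side (hd : Good d) (i : Side) {x : ℝ} (hx : 0 < x) (he : 0 ≤ e)
    (he1 : e ≤ 1 / (d.geo.m0 : ℝ)) (hz : x * x * e ≤ (d.geo.z1 : ℝ)) (hw : (d.v1 : ℝ) ≤ w)
    (hw1 : w ≤ top toReal d (x * x * e) x 1) :
    0 ≤ far toReal d (x * x * e) e e (x * x) 1 1 w (slope d i (x * x * e) e (x * x) 1) := by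
  set T := top toReal d (x * x * e) x 1 with hT
  set tau := (w - d.v1) / (T - d.v1) with htau
  have h0 : 0 ≤ tau := div_nonneg (by linarith) (by linarith)
  have h1 : tau ≤ 1 := div_le_one_of_le₀ (by linarith) (by linarith)
  have hbw : (d.v1 : ℝ) + tau * (T - d.v1) = w := by
    rcases eq_or_ne (T - d.v1) 0 with h | h
    · rw [h]; linarith
    · rw [htau]; field_simp; ring
  rcases le_total x (d.geo.xs : ℝ) with h | h
  · have h' := hd.farA_nonneg i x ⟨hx.le, h⟩ e ⟨he, he1⟩ tau ⟨h0, h1⟩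
    have hb : between toReal d (x * x * e) x 1 tau = w := by
      simp only [between, ← hT]
      simpa [toReal] using hbw
    simpa only [farA, toReal_one, hb] using h'
  · have hf : 1 / x ≤ 1 / (d.geo.xs : ℝ) := one_div_le_one_div_of_le hd.xs_pos h
    have h' := hd.farB_nonneg i (x * x * e) ⟨by positivity, hz⟩ (1 / x) ⟨by positivity, hf⟩ tau
      ⟨h0, h1⟩
    have hb : between toReal d (x * x * e) 1 (1 / x) tau = w / x := by
      have ht := top_hom (d := d) (x * x * e) (1 / x) 1 x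
      rw [mul_one, show x * (1 / x) = 1 by field_simp, ← hT] at ht
      simp only [between, toReal]
      rw [eq_div_iff hx.ne', ← hbw, ht]
      field_simp
    simp only [farB, toReal_one, hb] at h'
    rw [show x * x * e * (1 / x * (1 / x)) = e by field_simp] at h'
    have hh := far_hom (d := d) (x * x * e) e (x * x * e) 1 (1 / x * (1 / x)) (1 / x) (w / x)
      (slope d i (x * x * e) e 1 (1 / x * (1 / x))) x hx.ne'
    rw [← slope_hom, mul_one, show x ^ 2 * (1 / x * (1 / x)) = 1 by field_simp,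
      show x * (1 / x) = 1 by field_simp, show x * (w / x) = w by field_simp,
      show x * x * e / x ^ 2 = e by field_simp, show x ^ 2 = x * x from sq x] at hh
    rw [hh]
    exact mul_nonneg (by positivity) h'

/-- The vertex claim at every slope between the bounds. -/
theorem Good.near_between (hd : Good d) {y S : ℝ} (hy : 0 < y) (he : 0 ≤ e) (he1 : e ≤ 1 / (d.geo.m0 : ℝ))
    (hz : y * e ≤ (d.geo.z1 : ℝ)) (hlo : slope d .lo (y * e) e y 1 ≤ S)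
    (hhi : S ≤ slope d .hi (y * e) e y 1) : 0 ≤ near toReal d (y * e) e y 1 S := by
  have hlead := hd.lead_pos hy he he1 hz
  rw [toReal_one] at hlead
  have h0 := hd.near_side .lo hy he he1 hz
  have h1 := hd.near_side .hi hy he he1 hz
  generalize slope d .lo (y * e) e y 1 = A at *
  generalize slope d .hi (y * e) e y 1 = B at *
  rcases (hlo.trans hhi).eq_or_lt with hAB | hAB
  · rwa [show S = A by linarith]
  have key : near toReal d (y * e) e y 1 S * (B - A) =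
      (B - S) * near toReal d (y * e) e y 1 A + (S - A) * near toReal d (y * e) e y 1 B +
        (lead toReal d (y * e) e y 1 + 1 * (1 - y * e) ^ 2 * toReal d.a ^ 2) *
          (y ^ 2 * ((B - A) * ((S - A) * (B - S)))) := by
    simp only [near, toReal_one]
    ring
  have hn : 0 ≤ near toReal d (y * e) e y 1 S * (B - A) := by
    rw [key]
    have := mul_nonneg (sub_nonneg.2 hhi) h0
    have := mul_nonneg (sub_nonneg.2 hlo) h1
    have := mul_nonneg (mul_nonneg (sub_nonneg.2 hlo) (sub_nonneg.2 hhi)) (sub_pos.2 hAB).le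
    have : 0 ≤ (lead toReal d (y * e) e y 1 + 1 * (1 - y * e) ^ 2 * toReal d.a ^ 2) *
        (y ^ 2 * ((B - A) * ((S - A) * (B - S)))) := by
      refine mul_nonneg (by positivity) (mul_nonneg (sq_nonneg _) ?_)
      linarith
    linarith
  exact (mul_nonneg_iff_of_pos_right (sub_pos.2 hAB)).1 hn

/-- The sign claim at every slope between the bounds. -/
theorem Good.far_between (hd : Good d) {x S : ℝ} (hx : 0 < x) (he : 0 ≤ e) (he1 : e ≤ 1 / (d.geo.m0 : ℝ))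
    (hz : x * x * e ≤ (d.geo.z1 : ℝ)) (hw : (d.v1 : ℝ) ≤ w) (hw1 : w ≤ top toReal d (x * x * e) x 1)
    (hlo : slope d .lo (x * x * e) e (x * x) 1 ≤ S) (hhi : S ≤ slope d .hi (x * x * e) e (x * x) 1) :
    0 ≤ far toReal d (x * x * e) e e (x * x) 1 1 w S := by
  have h0 := hd.far_side w .lo hx he he1 hz hw hw1
  have h1 := hd.far_side w .hi hx he he1 hz hw hw1
  generalize slope d .lo (x * x * e) e (x * x) 1 = A at *
  generalize slope d .hi (x * x * e) e (x * x) 1 = B at *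
  rcases (hlo.trans hhi).eq_or_lt with hAB | hAB
  · rwa [show S = A by linarith]
  have key : far toReal d (x * x * e) e e (x * x) 1 1 w S * (B - A) =
      (B - S) * far toReal d (x * x * e) e e (x * x) 1 1 w A +
        (S - A) * far toReal d (x * x * e) e e (x * x) 1 1 w B := by
    simp only [far]
    ring
  refine (mul_nonneg_iff_of_pos_right (sub_pos.2 hAB)).1 ?_
  rw [key]
  exact add_nonneg (mul_nonneg (sub_nonneg.2 hhi) h0) (mul_nonneg (sub_nonneg.2 hlo) h1)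

/-- The remainder is nonnegative. -/
theorem Good.rho_nonneg (hd : Good d) {z y : ℝ} (hz : 0 ≤ z) (hy : 0 ≤ y) :
    0 ≤ rho toReal d z y 1 := by
  have := hd.r30; have := hd.r21; have := hd.r31; have := hd.r32
  have := hd.r34
  have hq : 0 ≤ (d.r00 : ℝ) + d.r10 * y + d.r20 * y ^ 2 := by
    nlinarith [sq_nonneg (2 * (d.r20 : ℝ) * y + d.r10), hd.disc, hd.r20]
  have : 0 ≤ (d.r30 : ℝ) * y ^ 3 + ((d.r21 : ℝ) * y ^ 2 + d.r31 * y ^ 3) * z +
      d.r32 * y ^ 3 * z ^ 2 + d.r34 * y ^ 3 * z ^ 4 := by positivity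
  simp only [rho, toReal]
  linarith

end Vale.Agent.P237.Petty.Cor.Top
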