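import Vale.Agent.P237.Petty.Cor.Top.Cert

/-!
# P237: the cell from ten and a half to twenty-four, for `200 ≤ p + 2`
-/

namespace Vale.Agent.P237.Petty.Cor.Top

open Set P100.Bernstein

/-- The cell from ten and a half to twenty-four. -/
def mid : Data where
  geo := geo200
  th := 6 / 5
  g := 7 / 10
  a := 91 / 100
  l0 := -53 / 50
  l1 := 5
  v1 := 51 / 50
  ev := 1417 / 1000
  r00 := 4 / 25
  r10 := -26 / 25
  r20 := 59 / 25
  r30 := 1 / 50
  r21 := 27 / 5
  r31 := 1 / 4
  r32 := 6

theorem mid_leadA : certify true (leadA ofRat mid (.var 0) (.var 1)) (boxA mid) .leaf = true := by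
  decide +kernel

theorem mid_leadB : certify true (leadB ofRat mid (.var 0) (.var 1)) (boxB mid) .leaf = true := by
  decide +kernel

theorem mid_nearA (i : Side) :
    certify false (nearA ofRat mid (slopeE mid i) (.var 0) (.var 1)) (boxA mid) .leaf = true := by
  cases i <;> decide +kernel

theorem mid_nearB (i : Side) :
    certify false (nearB ofRat mid (slopeE mid i) (.var 0) (.var 1)) (boxB mid) .leaf = true := by
  cases i <;> decide +kernel

theorem mid_farA (i : Side) :
    certify false (farA ofRat mid (slopeE mid i) (.var 0) (.var 1) (.var 2)) (boxFarA mid)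
      (.split 0 (.split 2 .leaf (.split 1 (.split 0 .leaf .leaf) (.split 0 .leaf .leaf))) .leaf) =
      true := by
  cases i <;> decide +kernel

theorem mid_farB (i : Side) :
    certify false (farB ofRat mid (slopeE mid i) (.var 0) (.var 1) (.var 2)) (boxFarB mid) .leaf =
      true := by
  cases i <;> decide +kernel

theorem mid_arcs :
    (arcExprs mid).all (fun e => certify false e [upTo mid.geo.z1] .leaf) = true := by
  decide +kernel

theorem good_mid : Good mid where
  th_nonneg := by norm_num [mid]
  g_pos := by norm_num [mid]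
  g_le := by norm_num [mid]
  a_pos := by norm_num [mid]
  v1_gt := by norm_num [mid]
  v1_le := by norm_num [mid]
  m0_ge := by norm_num [mid, geo200]
  z1_pos := by norm_num [mid, geo200]
  z1_lt := by norm_num [mid, geo200]
  xs_pos := by norm_num [mid, geo200]
  q_nonneg := by norm_num [mid, geo200]
  deg_ge := by norm_num [mid, geo200]
  hk_ge := by norm_num [mid, geo200]
  qs_ge := by norm_num [mid, geo200]
  rs_ge := by norm_num [mid, geo200]
  arcs := arcs_of_certify mid_arcs
  side_le := by norm_num [mid, geo200, Data.side]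
  gap := by norm_num [mid, geo200]
  r00 := by norm_num [mid]
  r10 := by norm_num [mid]
  r20 := by norm_num [mid]
  disc := by norm_num [mid]
  r30 := by norm_num [mid]
  r21 := by norm_num [mid]
  r31 := by norm_num [mid]
  r32 := by norm_num [mid]
  r34 := by norm_num [mid]
  leadA_pos := leadA_of_certify mid_leadA
  leadB_pos := leadB_of_certify mid_leadB
  nearA_nonneg := nearA_of_certify mid_nearA
  nearB_nonneg := nearB_of_certify mid_nearB
  farA_nonneg := farA_of_certify mid_farA
  farB_nonneg := farB_of_certify mid_farB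

theorem exp_le_mid {p : ℕ} (hp : 198 ≤ p) :
    Real.exp (24 / ((p : ℝ) + 2)) * (mid.geo.hk : ℝ) ≤ (mid.ev : ℝ) := by
  have hp' : (198 : ℝ) ≤ p := by exact_mod_cast hp
  have h1 : 24 / ((p : ℝ) + 2) ≤ 12 / 100 := by
    rw [div_le_div_iff₀ (by linarith) (by norm_num)]
    linarith
  have h2 : Real.exp (12 / 100 : ℝ) ≤ 112751 / 100000 := by
    have h := Real.exp_bound' (x := (12 / 100 : ℝ)) (by norm_num) (by norm_num) (n := 4) (by norm_num)
    refine h.trans ?_
    norm_num [Finset.sum_range_succ, Nat.factorial]
  refine le_trans (mul_le_mul_of_nonneg_right ((Real.exp_le_exp.2 h1).trans h2) (by norm_num [mid, geo200])) ?_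
  norm_num [mid, geo200]

/-- The cell from ten and a half to twenty-four. -/
theorem corCell_mid {p : ℕ} (hp : 198 ≤ p) :
    CorCell p (21 / 2 / ((p : ℝ) + 2)) (24 / ((p : ℝ) + 2)) := by
  have hp' : (198 : ℝ) ≤ p := by exact_mod_cast hp
  refine corCell_of_data good_mid (by norm_num [mid, geo200]; linarith) (by norm_num) (exp_le_mid hp) ?_
  have h0 : 0 ≤ tailConst mid := tailConst_nonneg good_mid
  have h1 : tailConst mid ≤ 20 := by norm_num [tailConst, devConst, mid, geo200, Data.G, abs_of_neg]
  have h : tailMoment mid ≤ 17 / 1000 := by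
    norm_num [tailMoment, tailProd, mid, geo200, Finset.prod_range_succ]
  have h2 : tailConst mid * tailMoment mid ≤ 20 * (17 / 1000) :=
    (mul_le_mul_of_nonneg_left h h0).trans (mul_le_mul_of_nonneg_right h1 (by norm_num))
  norm_num [mid, geo200] at h2 ⊢
  linarith

end Vale.Agent.P237.Petty.Cor.Top
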