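import Vale.Agent.P237.Petty.Cor.Top.Good

/-!
# P237: the cancelled cell for large values, at the inner abscissae

Up to `v1` the square in `t - s` and the vertex in `u = 1 / r - 1` give the remainder; beyond it
the part in `u` is nonnegative.
-/

namespace Vale.Agent.P237.Petty.Cor.Top

open Set

variable {p : ℕ} {d : Data}

/-- The linear potential. -/
noncomputable def linePot (p : ℕ) (d : Data) (s : ℝ) : ℝ :=
  -((d.G : ℝ) * Ident.b0 p) / arc s + (d.l0 : ℝ) / ((p : ℝ) + 1) + (d.l1 : ℝ) * s ^ 2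

/-- Its derivative. -/
noncomputable def linePot' (p : ℕ) (d : Data) (s : ℝ) : ℝ :=
  -((d.G : ℝ) * Ident.b0 p) * s / arc s ^ 3 + 2 * (d.l1 : ℝ) * s

/-- The square potential. -/
noncomputable def polePot (d : Data) (s : ℝ) : ℝ := -(d.a : ℝ) * (1 - s ^ 2) / s

/-- Its derivative. -/
noncomputable def polePot' (d : Data) (s : ℝ) : ℝ := (d.a : ℝ) * (1 + 1 / s ^ 2)

/-- The multiplier of the axial term. -/
noncomputable def nuT (p : ℕ) (d : Data) : ℝ := nuS p + d.th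

/-- The multiplier of the shadow. -/
noncomputable def gamT (p : ℕ) (d : Data) : ℝ := (d.G : ℝ) * ((p : ℝ) + 1)

/-- The linear coefficient in `t - s`, over `s`. -/
noncomputable def slopeT (p : ℕ) (d : Data) (s : ℝ) : ℝ :=
  (p : ℝ) * ((d.G : ℝ) * Ident.b0 p / arc s ^ 3 - 1 / Ident.b0 p ^ 2) -
    2 * (d.th : ℝ) * ((p : ℝ) + 4) + 2 * d.l1 -
      ((d.l0 : ℝ) + d.l1 * (((p : ℝ) + 1) * s ^ 2)) / arc s ^ 2

theorem G_eq (d : Data) : (d.G : ℝ) = 1 + 2 * d.th := by simp [Data.G]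

theorem side_eq (d : Data) : (d.side : ℝ) = (1 - (d.g : ℝ)) ^ 2 / (2 * d.g) := by simp [Data.side]

theorem hasDerivAt_linePot {s : ℝ} (hs : s ∈ Ioo (0 : ℝ) 1) :
    HasDerivAt (linePot p d) (linePot' p d s) s := by
  have h0 : 0 < 1 - s ^ 2 := by nlinarith [hs.1, hs.2]
  have hq : 0 < arc s := Real.sqrt_pos.2 h0
  have hd : HasDerivAt arc (-s / arc s) s := by
    refine (((hasDerivAt_pow 2 s).const_sub 1).sqrt h0.ne').congr_deriv ?_
    simp only [arc]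
    field_simp
    ring
  have h := (((hasDerivAt_const s (-((d.G : ℝ) * Ident.b0 p))).div hd hq.ne').add_const
    ((d.l0 : ℝ) / ((p : ℝ) + 1))).add ((hasDerivAt_pow 2 s).const_mul (d.l1 : ℝ))
  refine h.congr_deriv ?_
  rw [linePot']
  field_simp
  push_cast
  ring

theorem hasDerivAt_polePot {s : ℝ} (hs : s ∈ Ioo (0 : ℝ) 1) :
    HasDerivAt (polePot d) (polePot' d s) s :=
  (polePot_null 0 (d.a : ℝ) hs).1

theorem polePot_rate (p : ℕ) (d : Data) {s : ℝ} (hs : s ∈ Ioo (0 : ℝ) 1) :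
    polePot' d s - potRate p s * polePot d s = (d.a : ℝ) * ((p : ℝ) + 2 + 1 / s ^ 2) :=
  (polePot_null p (d.a : ℝ) hs).2

theorem cancelU_eq {s : ℝ} :
    cancelU p (gamT p d) (linePot p d) s =
      ((d.l0 : ℝ) + d.l1 * (((p : ℝ) + 1) * s ^ 2)) / ((p : ℝ) + 1) := by
  simp only [cancelU, gamT, linePot]
  field_simp
  ring

theorem cancelD_eq {s : ℝ} (hs : s ∈ Ioo (0 : ℝ) 1) :
    cancelD p (nuT p d) (linePot p d) (linePot' p d) s = s * slopeT p d s := by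
  have hc : 0 < arc s := arc_pos ⟨by linarith [hs.1], hs.2⟩
  have h2 : arc s ^ 2 = 1 - s ^ 2 := Real.sq_sqrt (by nlinarith [hs.1, hs.2])
  have hb := (Ident.b0_pos p).ne'
  simp only [cancelD, slopeT, linePot, linePot', nuT, potRate, sqCoef, ← h2]
  field_simp
  ring

theorem slopeT_bounds (hd : Good d) {s : ℝ} (hs : s ∈ Ioo (0 : ℝ) 1) (h : s ^ 2 ≤ (d.geo.z1 : ℝ)) :
    slope d .lo (s ^ 2) (1 / ((p : ℝ) + 1)) (((p : ℝ) + 1) * s ^ 2) 1 ≤
        (1 - s ^ 2) * slopeT p d s ∧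
      (1 - s ^ 2) * slopeT p d s ≤
        slope d .hi (s ^ 2) (1 / ((p : ℝ) + 1)) (((p : ℝ) + 1) * s ^ 2) 1 := by
  have hc : 0 < arc s := arc_pos ⟨by linarith [hs.1], hs.2⟩
  obtain ⟨-, c1, c2⟩ := arc_bounds hs ⟨hd.q_nonneg.1, hd.q_nonneg.2.2⟩
    ⟨(hd.arcs _ ⟨sq_nonneg s, h⟩).1, (hd.arcs _ ⟨sq_nonneg s, h⟩).2.1, (hd.arcs _ ⟨sq_nonneg s, h⟩).2.2.1⟩
  obtain ⟨b1, b2, b3, b4⟩ := b0_bounds p
  have hm : (0 : ℝ) < (p : ℝ) + 1 := by positivity
  have hG : 0 ≤ (d.G : ℝ) := by rw [G_eq]; linarith [hd.th_nonneg]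
  have hp : (0 : ℝ) ≤ p := Nat.cast_nonneg p
  have hz : 0 ≤ 1 - s ^ 2 := by nlinarith [hs.1, hs.2]
  have hb := Ident.b0_pos p
  have h2 : arc s ^ 2 = 1 - s ^ 2 := Real.sq_sqrt hz
  have he1 : 1 / ((p : ℝ) + 1) ≤ 1 := by rw [div_le_one hm]; linarith
  have hlo : 0 ≤ 1 + s ^ 2 * cubeLo toReal (s ^ 2) := by
    simp only [cubeLo, toReal]; push_cast; positivity
  have hu := mul_le_mul_of_nonneg_left (mul_le_mul b2 c2 (by positivity)
    (hb.le.trans b2)) hG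
  have hl := mul_le_mul_of_nonneg_left (mul_le_mul b1 c1 hlo hb.le) hG
  have e : (1 - s ^ 2) * slopeT p d s = (1 - s ^ 2) *
      ((p : ℝ) * ((d.G : ℝ) * (Ident.b0 p * (1 / arc s ^ 3)) - 1 / Ident.b0 p ^ 2) -
        2 * (d.th : ℝ) * ((p : ℝ) + 4) + 2 * d.l1) -
      ((d.l0 : ℝ) + d.l1 * (((p : ℝ) + 1) * s ^ 2)) := by
    rw [slopeT, ← h2]
    field_simp
  rw [e]
  simp only [slope, slopeLo, slopeHi, lin, toReal, G_eq] at hu hl ⊢
  push_cast at hu hl ⊢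
  constructor
  · refine le_trans (le_of_eq ?_) (sub_le_sub_right (mul_le_mul_of_nonneg_left
      (add_le_add (sub_le_sub_right (mul_le_mul_of_nonneg_left (sub_le_sub hl b4) hp) _) le_rfl)
      hz) _)
    field_simp
    ring
  · refine le_trans (sub_le_sub_right (mul_le_mul_of_nonneg_left
      (add_le_add (sub_le_sub_right (mul_le_mul_of_nonneg_left (sub_le_sub hu b3) hp) _) le_rfl)
      hz) _) (le_of_eq ?_)
    field_simp
    ring

theorem one_le_of_m0 (hd : Good d) (hp : (d.geo.m0 : ℝ) ≤ (p : ℝ) + 1) : 1 ≤ p := by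
  have h : (1 : ℝ) ≤ p := by linarith [hd.m0_ge]
  exact_mod_cast h

theorem sqr_le (hp : 1 ≤ p) {s : ℝ} (hs : s ∈ Ioo (0 : ℝ) 1) :
    sqr toReal d (1 / ((p : ℝ) + 1)) (((p : ℝ) + 1) * s ^ 2) 1 / s ^ 2 ≤
      polePot' d s - potRate p s * polePot d s - nuT p d * ((p : ℝ) + 4) * (d.g : ℝ) ^ 2 := by
  have h0 := hs.1.ne'
  rw [polePot_rate p d hs, div_le_iff₀ (pow_pos hs.1 2), nuT]
  have h1 : nuS p ≤ 1 / 8 + 3 / 2 * (1 / ((p : ℝ) + 1)) :=
    (nuS_bounds hp).2.trans (le_of_eq (by ring))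
  have h2 := mul_le_mul_of_nonneg_right h1
    (show 0 ≤ ((p : ℝ) + 4) * (d.g : ℝ) ^ 2 * s ^ 2 by positivity)
  refine le_trans (le_of_eq ?_) (le_of_le_of_eq (show
    ((d.a : ℝ) * ((p : ℝ) + 2) -
        ((1 / 8 + 3 / 2 * (1 / ((p : ℝ) + 1))) + d.th) * ((p : ℝ) + 4) * (d.g : ℝ) ^ 2) * s ^ 2 +
      d.a ≤
    ((d.a : ℝ) * ((p : ℝ) + 2) - (nuS p + d.th) * ((p : ℝ) + 4) * (d.g : ℝ) ^ 2) * s ^ 2 + d.a
      by linarith) ?_)
  · simp only [sqr, toReal]
    push_cast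
    field_simp
    ring
  · field_simp
    ring

theorem sqr_pos (hd : Good d) (hp : (d.geo.m0 : ℝ) ≤ (p : ℝ) + 1) {y : ℝ} (hy : 0 ≤ y) :
    0 < sqr toReal d (1 / ((p : ℝ) + 1)) y 1 := by
  have hm30 := hd.m0_ge
  have he : 1 / ((p : ℝ) + 1) ≤ 1 / (d.geo.m0 : ℝ) :=
    one_div_le_one_div_of_le (by linarith) hp
  have he0 : 0 ≤ 1 / ((p : ℝ) + 1) := by positivity
  have h1 : ((d.th : ℝ) + 1 / 8 + 3 / 2 * (1 / ((p : ℝ) + 1))) * (d.g : ℝ) ^ 2 *
      (1 + 3 * (1 / ((p : ℝ) + 1))) ≤ d.a := by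
    have e3 : ((d.geo.m0 : ℝ) + 3) / (d.geo.m0 : ℝ) = 1 + 3 * (1 / (d.geo.m0 : ℝ)) := by field_simp
    have e4 : (3 : ℝ) / 2 / (d.geo.m0 : ℝ) = 3 / 2 * (1 / (d.geo.m0 : ℝ)) := by ring
    have := hd.gap.le
    rw [e3, e4] at this
    refine le_trans (mul_le_mul (mul_le_mul_of_nonneg_right (by linarith) (sq_nonneg _))
      (by linarith) (by positivity) ?_) this
    have : (0 : ℝ) ≤ 1 / (d.geo.m0 : ℝ) := by positivity
    exact mul_nonneg (by linarith [hd.th_nonneg]) (sq_nonneg _)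
  have h2 := mul_le_mul_of_nonneg_right h1 hy
  have h3 := mul_nonneg (mul_nonneg hd.a_pos.le he0) hy
  simp only [sqr, toReal]
  push_cast
  nlinarith [hd.a_pos]

/-- Below the coefficient of `u ^ 2 / v`, the pade part at `v`. -/
theorem uu_ge (hd : Good d) (hp : (d.geo.m0 : ℝ) ≤ (p : ℝ) + 1) {s v : ℝ} (hs : s ∈ Ioo (0 : ℝ) 1)
    (h : s ^ 2 ≤ (d.geo.z1 : ℝ)) (hv : 0 < v) :
    numLo toReal d (s ^ 2) (1 / ((p : ℝ) + 1)) -
        shadeHi toReal d (s ^ 2) (1 / ((p : ℝ) + 1)) * ((2 * v + 1) / (2 * (v + 2))) ≤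
      cancelUU p (gamT p d) (nuT p d) d.g s v -
        (2 * nuT p d * s * ((d.g : ℝ) ^ 2 - 1)) ^ 2 / (4 * (2 * nuT p d * d.g * (1 + d.g))) := by
  have hg := hd.g_pos
  have hc : 0 < arc s := arc_pos ⟨by linarith [hs.1], hs.2⟩
  obtain ⟨c0, -, -⟩ := arc_bounds hs ⟨hd.q_nonneg.1, hd.q_nonneg.2.2⟩
    ⟨(hd.arcs _ ⟨sq_nonneg s, h⟩).1, (hd.arcs _ ⟨sq_nonneg s, h⟩).2.1, (hd.arcs _ ⟨sq_nonneg s, h⟩).2.2.1⟩
  obtain ⟨-, b2, -, -⟩ := b0_bounds p
  have hb := Ident.b0_pos p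
  have hG : 0 < (d.G : ℝ) := by rw [G_eq]; linarith [hd.th_nonneg]
  have hn : 1 / 8 - 2 * (1 / ((p : ℝ) + 1)) ≤ nuS p :=
    le_trans (le_of_eq (by ring)) (nuS_bounds (one_le_of_m0 hd hp)).1
  have hnu : 0 < nuT p d := by
    have hm30 := hd.m0_ge
    have : 1 / ((p : ℝ) + 1) ≤ 1 / 30 := one_div_le_one_div_of_le (by norm_num) (by linarith)
    rw [nuT]
    linarith [hd.th_nonneg]
  have hside : 0 ≤ 2 * (1 - s ^ 2) - (d.side : ℝ) * s ^ 2 := by
    have hs0 : 0 ≤ (d.side : ℝ) := by rw [side_eq]; positivity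
    linarith [mul_le_mul_of_nonneg_left h hs0, hd.side_le]
  have h1 := mul_le_mul_of_nonneg_right (mul_le_mul_of_nonneg_left
    (show (d.th : ℝ) + 1 / 8 - 2 * (1 / ((p : ℝ) + 1)) ≤ nuT p d by rw [nuT]; linarith)
    (show (0 : ℝ) ≤ 1 + d.g by linarith)) hside
  have h2 := mul_le_mul_of_nonneg_right (mul_le_mul_of_nonneg_left
    (mul_le_mul b2 c0 (by positivity) (hb.le.trans b2)) hG.le)
    (show 0 ≤ (2 * v + 1) / (2 * (v + 2)) by positivity)
  have e : cancelUU p (gamT p d) (nuT p d) d.g s v -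
      (2 * nuT p d * s * ((d.g : ℝ) ^ 2 - 1)) ^ 2 / (4 * (2 * nuT p d * d.g * (1 + d.g))) =
      (1 + (d.g : ℝ)) * nuT p d * (2 * (1 - s ^ 2) - (d.side : ℝ) * s ^ 2) -
        (d.G : ℝ) * (Ident.b0 p * (1 / arc s)) * ((2 * v + 1) / (2 * (v + 2))) := by
    rw [side_eq, cancelUU, gamT]
    have : (0 : ℝ) < 1 + d.g := by linarith
    field_simp
    ring
  rw [e]
  simp only [numLo, shadeHi, toReal] at h1 h2 ⊢
  push_cast at h1 h2 ⊢
  linarith

/-- A vertex below the remainder. -/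
theorem vertex_ge {L B P Qb yS e u coef : ℝ} (hL : 0 < L) (hB : 0 < B)
    (hn : 0 ≤ L * (4 * P * B - yS) - Qb ^ 2) (hc : L / B ≤ coef) :
    0 ≤ e ^ 2 * (4 * P * B - yS) / (4 * B) + e * Qb / B * u + coef * u ^ 2 := by
  have hq := quad_vertex_le (l := e * Qb / B) (u := u) (div_pos hL hB)
  have hq2 := mul_le_mul_of_nonneg_right hc (sq_nonneg u)
  have e2 : e ^ 2 * (4 * P * B - yS) / (4 * B) + -(e * Qb / B) ^ 2 / (4 * (L / B)) =
      e ^ 2 * (L * (4 * P * B - yS) - Qb ^ 2) / (4 * B * L) := by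
    field_simp
    ring
  have : 0 ≤ e ^ 2 * (4 * P * B - yS) / (4 * B) + -(e * Qb / B) ^ 2 / (4 * (L / B)) := by
    rw [e2]
    positivity
  linarith

/-- The coefficient of `u ^ 2` up to `v1` is at least the certified one. -/
theorem lead_div_le (hd : Good d) {z e y v : ℝ} (hv : 0 < v) (hv1 : v ≤ d.v1) (hz : 0 ≤ z)
    (he : 0 ≤ e) (he1 : e ≤ 1) (hB : 0 < sqr toReal d e y 1) (hL : 0 < lead toReal d z e y 1) :
    lead toReal d z e y 1 / sqr toReal d e y 1 ≤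
      (numLo toReal d z e - shadeHi toReal d z e * ((2 * v + 1) / (2 * (v + 2)))) / v -
        (d.a : ℝ) ^ 2 * (1 - z) ^ 2 / sqr toReal d e y 1 := by
  have hV : (0 : ℝ) < d.v1 := by linarith [hd.v1_gt]
  have eL : lead toReal d z e y 1 =
      (numLo toReal d z e - shadeHi toReal d z e * ((2 * d.v1 + 1) / (2 * (d.v1 + 2)))) / d.v1 *
        sqr toReal d e y 1 - (d.a : ℝ) ^ 2 * (1 - z) ^ 2 := by
    simp only [lead, toReal]
    push_cast
    ring
  set A := fun w : ℝ => numLo toReal d z e - shadeHi toReal d z e * ((2 * w + 1) / (2 * (w + 2))) with hA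
  have hA0 : 0 ≤ A d.v1 := by
    have : 0 < A d.v1 / d.v1 * sqr toReal d e y 1 := by
      simp only [hA]
      linarith [mul_nonneg (sq_nonneg (d.a : ℝ)) (sq_nonneg (1 - z))]
    exact ((div_pos_iff_of_pos_right hV).1 ((mul_pos_iff_of_pos_right hB).1 this)).le
  have hsh : 0 ≤ shadeHi toReal d z e := by
    have : 0 ≤ (d.G : ℝ) := by rw [G_eq]; linarith [hd.th_nonneg]
    have : 0 ≤ 1 - 1 / 2 * e * (1 - 2 * e) := by nlinarith
    have := hd.q_nonneg.1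
    simp only [shadeHi, invArc, toReal]
    push_cast
    positivity
  have hfr : (2 * v + 1) / (2 * (v + 2)) ≤ (2 * (d.v1 : ℝ) + 1) / (2 * ((d.v1 : ℝ) + 2)) := by
    rw [div_le_div_iff₀ (by linarith) (by linarith)]
    nlinarith
  have hanti : A d.v1 ≤ A v := by
    simp only [hA]
    linarith [mul_le_mul_of_nonneg_left hfr hsh]
  have h1 : A d.v1 / d.v1 ≤ A v / v :=
    (div_le_div_of_nonneg_left hA0 hv hv1).trans (div_le_div_of_nonneg_right hanti hv.le)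
  simp only [hA] at h1
  rw [eL, sub_div, mul_div_cancel_right₀ _ hB.ne']
  linarith

/-- Beyond `v1` the sign claim bounds the part in `u`. -/
theorem part_nonneg {z e y v S : ℝ} (hv : 1 < v) (hB : 0 < sqr toReal d e y 1)
    (hf : 0 ≤ far toReal d z e e y 1 1 v S) :
    0 ≤ (e * (lin toReal d y 1 * sqr toReal d e y 1 + (d.a : ℝ) * y * S) / sqr toReal d e y 1 +
      ((numLo toReal d z e - shadeHi toReal d z e * ((2 * v + 1) / (2 * (v + 2)))) / v -
        (d.a : ℝ) ^ 2 * (1 - z) ^ 2 / sqr toReal d e y 1) * (v - 1)) * (v - 1) := by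
  refine mul_nonneg ?_ (by linarith)
  refine (mul_nonneg_iff_of_pos_left
    (show 0 < 2 * v * (v + 2) * sqr toReal d e y 1 by
      exact mul_pos (mul_pos (by linarith) (by linarith)) hB)).1 (hf.trans (le_of_eq ?_))
  have : v + 2 ≠ 0 := by linarith
  have : v ≠ 0 := by linarith
  generalize hB' : sqr toReal d e y 1 = B at hB
  simp only [far, hB', toReal]
  generalize lin (fun q : ℚ => (q : ℝ)) d y 1 = la
  generalize numLo (fun q : ℚ => (q : ℝ)) d z e = N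
  generalize shadeHi (fun q : ℚ => (q : ℝ)) d z e = W
  push_cast
  field_simp
  ring

theorem core_expand (a z e y S P la A u v : ℝ) {B : ℝ} (hB : B ≠ 0) (hv : v ≠ 0)
    (hye : y * e = z) :
    e * la * u + A * (u ^ 2 / v) - (z * S - 2 * a * (1 - z) * u) ^ 2 / (4 * B) + e ^ 2 * P =
      e ^ 2 * (4 * P * B - y ^ 2 * S ^ 2) / (4 * B) +
        e * (la * B + a * y * ((1 - z) * S)) / B * u + (A / v - a ^ 2 * (1 - z) ^ 2 / B) * u ^ 2 := by
  subst hye
  field_simp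
  ring

/-- The linear bound of `1 / r` is below `top`. -/
theorem top_ge (hd : Good d) {x z c : ℝ} (hx : 0 ≤ x) (hz : z ≤ (d.geo.z1 : ℝ))
    (hc : c = 1 - z) (hz0 : 0 ≤ z) :
    (d.ev : ℝ) * ((d.geo.qs : ℝ) * x + 1) / c ≤ top toReal d z x 1 := by
  subst hc
  rw [div_le_iff₀ (by linarith [hd.z1_lt])]
  have hev : 0 ≤ (d.ev : ℝ) := by linarith [hd.v1_gt, hd.v1_le]
  have h1 := (hd.arcs z ⟨hz0, hz⟩).2.2.2
  simp only [top, toReal]
  push_cast
  nlinarith [mul_nonneg (mul_nonneg hev (show 0 ≤ (d.geo.qs : ℝ) * x + 1 by have := mul_nonneg hd.qs_ge.1 hx; linarith)) (sub_nonneg.2 h1)]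

/-- The part of the cancelled cell without weight, at the inner abscissae. -/
theorem bulk_ge (hd : Good d) (hp : (d.geo.m0 : ℝ) ≤ (p : ℝ) + 1) {ell s t a r q : ℝ} (h : FlatState p ell s t a r q)
    (hE : Real.exp ell * (d.geo.hk : ℝ) ≤ d.ev) (hz : s ^ 2 ≤ (d.geo.z1 : ℝ)) :
    ell * wS p (arc s) -
        (1 / ((p : ℝ) + 1)) ^ 2 * rho toReal d (s ^ 2) (((p : ℝ) + 1) * s ^ 2) 1 ≤
      cancelExpr p (gamT p d) (nuT p d) ell (fun s t => s + (d.g : ℝ) * (s - t))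
        (fun _ _ => 1 + (d.g : ℝ)) (fun _ _ => -(d.g : ℝ)) (quadPot (linePot p d) (polePot d))
        (quadPotS (linePot p d) (linePot' p d) (polePot d) (polePot' d))
        (quadPotT (linePot p d) (polePot d)) s t a r := by
  have hs := h.state.s_mem
  have hm30 := hd.m0_ge
  have hm : (0 : ℝ) < (p : ℝ) + 1 := by positivity
  have hc := h.state.arc_pos'
  have h2 : arc s ^ 2 = 1 - s ^ 2 := Real.sq_sqrt (by nlinarith [hs.1, hs.2])
  have hgam : 0 ≤ gamT p d := mul_nonneg (by rw [G_eq]; linarith [hd.th_nonneg]) hm.le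
  refine le_trans ?_ (cancelExpr_quad_ge (g := (d.g : ℝ)) hgam _ _ _ _ h)
  set e := 1 / ((p : ℝ) + 1) with he
  have he0 : 0 < e := by positivity
  have he1 : e ≤ 1 / (d.geo.m0 : ℝ) := one_div_le_one_div_of_le (by linarith) hp
  have he2 : e ≤ 1 / 30 := he1.trans (one_div_le_one_div_of_le (by norm_num) hm30)
  set y := ((p : ℝ) + 1) * s ^ 2 with hy
  have hy0 : 0 < y := mul_pos hm (pow_pos hs.1 2)
  have hye : y * e = s ^ 2 := by rw [hy, he]; field_simp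
  obtain ⟨v, hv, hrv⟩ : ∃ v, 0 < v ∧ 1 / r = v := ⟨_, one_div_pos.2 h.state.rate_pos, rfl⟩
  have hline := inv_rate_le_line (by linarith : (0 : ℝ) < d.geo.m0) hp hd.hk_ge.1 hd.hk_ge.2
    hd.qs_ge.1 hd.qs_ge.2 h hE
  rw [hrv] at hline ⊢
  rw [cancelU_eq, cancelD_eq hs]
  obtain ⟨hlo, hhi⟩ := slopeT_bounds (p := p) hd hs hz
  rw [← he, ← hy] at hlo hhi
  set B := sqr toReal d e y 1 with hBdef
  have hB : 0 < B := sqr_pos hd hp hy0.le
  have hnu : 0 < nuT p d := by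
    have h8 := (nuS_bounds (p := p) (one_le_of_m0 hd hp)).1
    have : 2 / ((p : ℝ) + 1) ≤ 2 / 30 := div_le_div_of_nonneg_left (by norm_num) (by norm_num) (by linarith)
    rw [nuT]
    linarith [hd.th_nonneg]
  have hg := hd.g_pos
  have hK : 0 < 2 * nuT p d * d.g * (1 + d.g) := by positivity
  set S := slopeT p d s with hS
  set A := fun v => numLo toReal d (s ^ 2) e - shadeHi toReal d (s ^ 2) e * ((2 * v + 1) / (2 * (v + 2)))
    with hA
  have hsq := square_split (B := B / s ^ 2) (K := 2 * nuT p d * d.g * (1 + d.g)) (v := v)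
    (D := s * S) (α := 2 * polePot d s) (Y := 2 * nuT p d * s * ((d.g : ℝ) ^ 2 - 1)) (u := v - 1)
    (d := t - s) (div_pos hB (pow_pos hs.1 2)) hK hv
  have hdd := mul_le_mul_of_nonneg_right (sqr_le (p := p) (d := d) (one_le_of_m0 hd hp) hs) (sq_nonneg (t - s))
  have huu := mul_le_mul_of_nonneg_right (uu_ge hd hp hs hz hv)
    (show 0 ≤ (v - 1) ^ 2 / v by positivity)
  set u := v - 1 with hu
  set Sh := (1 - s ^ 2) * S with hSh
  have ec : (s * S + 2 * polePot d s * u) ^ 2 / (4 * (B / s ^ 2)) =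
      (s ^ 2 * S - 2 * (d.a : ℝ) * (1 - s ^ 2) * u) ^ 2 / (4 * B) := by
    have := hs.1.ne'
    rw [polePot]
    field_simp
    ring
  have h1s : 0 < 1 - s ^ 2 := h2 ▸ pow_pos hc 2
  rw [← hye] at hlo hhi
  have hz' : y * e ≤ (d.geo.z1 : ℝ) := hye.symm ▸ hz
  have hn := hd.near_between hy0 he0.le he1 hz' hlo hhi
  have hlead := hd.lead_pos hy0 he0.le he1 hz'
  rw [toReal_one] at hlead
  rw [hye] at hn hlead
  set L := lead toReal d (s ^ 2) e y 1 with hLdef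
  set P := rho toReal d (s ^ 2) y 1 with hP
  set la := lin toReal d y 1 with hla
  have hn2 : 0 ≤ L * (4 * P * B - y ^ 2 * S ^ 2) - (la * B + (d.a : ℝ) * y * Sh) ^ 2 := by
    refine (mul_nonneg_iff_of_pos_left (pow_pos h1s 2)).1 (hn.trans (le_of_eq ?_))
    simp only [near, ← hLdef, ← hP, ← hla, ← hBdef, hSh, toReal]
    push_cast
    ring
  have key : 0 ≤ e ^ 2 * (4 * P * B - y ^ 2 * S ^ 2) / (4 * B) +
      e * (la * B + (d.a : ℝ) * y * Sh) / B * u +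
        (A v / v - (d.a : ℝ) ^ 2 * (1 - s ^ 2) ^ 2 / B) * u ^ 2 := by
    rcases le_or_gt v (d.v1 : ℝ) with hv1 | hv1
    · exact vertex_ge hlead hB hn2 (lead_div_le hd hv hv1 (sq_nonneg s) he0.le (by linarith) hB hlead)
    · set x := √y with hxdef
      have hx : 0 < x := Real.sqrt_pos.2 hy0
      have hxx : x * x = y := Real.mul_self_sqrt hy0.le
      have hxs : √((p : ℝ) + 1) * s = x := by
        rw [hxdef, hy, Real.sqrt_mul hm.le, Real.sqrt_sq hs.1.le]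
      rw [hxs] at hline
      have htop := hline.trans (top_ge hd hx.le hz h2 (sq_nonneg s))
      rw [← hxx] at hlo hhi hz'
      rw [← hye, ← hxx] at htop
      have hf := hd.far_between v hx he0.le he1 hz' hv1.le htop hlo hhi
      rw [hxx, hye] at hf
      have h3 := part_nonneg (by linarith [hd.v1_gt]) hB hf
      have h4 : 0 ≤ e ^ 2 * (4 * P * B - y ^ 2 * S ^ 2) / (4 * B) :=
        div_nonneg (mul_nonneg (sq_nonneg e)
          ((mul_nonneg_iff_of_pos_left hlead).1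
            (by linarith [sq_nonneg (la * B + (d.a : ℝ) * y * Sh)]))) (by positivity)
      simp only [← hBdef, ← hla, ← hu] at h3
      simp only [hA]
      linarith
  have core : -(e ^ 2 * P) ≤ ((d.l0 : ℝ) + d.l1 * y) / ((p : ℝ) + 1) * u + A v * (u ^ 2 / v) -
      (s * S + 2 * polePot d s * u) ^ 2 / (4 * (B / s ^ 2)) := by
    rw [ec, show ((d.l0 : ℝ) + d.l1 * y) / ((p : ℝ) + 1) = e * la by
      simp only [hla, lin, toReal, he]; ring]
    have := core_expand (d.a : ℝ) (s ^ 2) e y S P la (A v) u v hB.ne' hv.ne'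
    rw [hSh] at key
    linarith [this hye]
  have e1 : cancelUD (nuT p d) d.g (polePot d) s v * (u * (t - s)) =
      (2 * polePot d s - 2 * nuT p d * s * ((d.g : ℝ) ^ 2 - 1) / v) * (u * (t - s)) := rfl
  have e2 : cancelDD p (nuT p d) d.g (polePot d) (polePot' d) s v * (t - s) ^ 2 =
      (polePot' d s - potRate p s * polePot d s - nuT p d * ((p : ℝ) + 4) * (d.g : ℝ) ^ 2) *
          (t - s) ^ 2 + 2 * nuT p d * d.g * (1 + d.g) / v * (t - s) ^ 2 := by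
    rw [cancelDD]; ring
  rw [e1, e2]
  simp only [hA] at core
  rw [neg_div] at hsq
  linarith

end Vale.Agent.P237.Petty.Cor.Top
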