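import Vale.Agent.P237.Petty.Cor.Top.Cert

/-!
# P237: the cell from twenty-four to the large regime, for `200 ≤ p + 2`
-/

namespace Vale.Agent.P237.Petty.Cor.Top

open Set P100.Bernstein

theorem wide_leadA : certify true (leadA ofRat wide (.var 0) (.var 1)) (boxA wide) .leaf = true := by
  decide +kernel

theorem wide_leadB : certify true (leadB ofRat wide (.var 0) (.var 1)) (boxB wide) .leaf = true := by
  decide +kernel

theorem wide_nearA (i : Side) :
    certify false (nearA ofRat wide (slopeE wide i) (.var 0) (.var 1)) (boxA wide) .leaf = true := by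
  cases i <;> decide +kernel

theorem wide_nearB (i : Side) :
    certify false (nearB ofRat wide (slopeE wide i) (.var 0) (.var 1)) (boxB wide) .leaf = true := by
  cases i <;> decide +kernel

theorem wide_farA (i : Side) :
    certify false (farA ofRat wide (slopeE wide i) (.var 0) (.var 1) (.var 2)) (boxFarA wide) treeFarA =
      true := by
  cases i <;> decide +kernel

theorem wide_farB (i : Side) :
    certify false (farB ofRat wide (slopeE wide i) (.var 0) (.var 1) (.var 2)) (boxFarB wide) .leaf =
      true := by
  cases i <;> decide +kernel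

theorem wide_arcs :
    (arcExprs wide).all (fun e => certify false e [upTo wide.geo.z1] .leaf) = true := by
  decide +kernel

theorem good_wide : Good wide where
  th_nonneg := by norm_num [wide]
  g_pos := by norm_num [wide]
  g_le := by norm_num [wide]
  a_pos := by norm_num [wide]
  v1_gt := by norm_num [wide]
  v1_le := by norm_num [wide]
  m0_ge := by norm_num [wide, geo200]
  z1_pos := by norm_num [wide, geo200]
  z1_lt := by norm_num [wide, geo200]
  xs_pos := by norm_num [wide, geo200]
  q_nonneg := by norm_num [wide, geo200]
  deg_ge := by norm_num [wide, geo200]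
  hk_ge := by norm_num [wide, geo200]
  qs_ge := by norm_num [wide, geo200]
  rs_ge := by norm_num [wide, geo200]
  arcs := arcs_of_certify wide_arcs
  side_le := by norm_num [wide, geo200, Data.side]
  gap := by norm_num [wide, geo200]
  r00 := by norm_num [wide]
  r10 := by norm_num [wide]
  r20 := by norm_num [wide]
  disc := by norm_num [wide]
  r30 := by norm_num [wide]
  r21 := by norm_num [wide]
  r31 := by norm_num [wide]
  r32 := by norm_num [wide]
  r34 := by norm_num [wide]
  leadA_pos := leadA_of_certify wide_leadA
  leadB_pos := leadB_of_certify wide_leadB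
  nearA_nonneg := nearA_of_certify wide_nearA
  nearB_nonneg := nearB_of_certify wide_nearB
  farA_nonneg := farA_of_certify wide_farA
  farB_nonneg := farB_of_certify wide_farB

theorem exp_le_wide {p : ℕ} (hp : 198 ≤ p) :
    Real.exp (14 / √((p : ℝ) + 3)) * (wide.geo.hk : ℝ) ≤ (wide.ev : ℝ) := by
  have hp' : (198 : ℝ) ≤ p := by exact_mod_cast hp
  have h1 : 14 / √((p : ℝ) + 3) ≤ 98751 / 100000 := by
    have h0 : (0 : ℝ) < 14 / (98751 / 100000) := by norm_num
    have : 14 / (98751 / 100000) ≤ √((p : ℝ) + 3) :=
      Real.le_sqrt_of_sq_le (le_trans (by norm_num) (by linarith : (201 : ℝ) ≤ (p : ℝ) + 3))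
    rw [div_le_iff₀ (h0.trans_le this)]
    rw [div_le_iff₀ (by norm_num)] at this
    linarith
  have h2 : Real.exp (98751 / 100000 : ℝ) ≤ 26850 / 10000 := by
    rw [show (98751 / 100000 : ℝ) = 1 + -(1249 / 100000) by norm_num, Real.exp_add, Real.exp_neg]
    refine le_trans (mul_le_mul Real.exp_one_lt_d9.le
      (inv_anti₀ (by norm_num) (Real.add_one_le_exp _)) (by positivity) (by norm_num)) ?_
    norm_num
  refine le_trans (mul_le_mul_of_nonneg_right ((Real.exp_le_exp.2 h1).trans h2) (by norm_num [wide, geo200])) ?_
  norm_num [wide, geo200]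

/-- The cell from twenty-four to the large regime. -/
theorem corCell_wide {p : ℕ} (hp : 198 ≤ p) :
    CorCell p (24 / ((p : ℝ) + 2)) (14 / √((p : ℝ) + 3)) := by
  have hp' : (198 : ℝ) ≤ p := by exact_mod_cast hp
  refine corCell_of_data good_wide (by norm_num [wide, geo200]; linarith) (by norm_num) (exp_le_wide hp) ?_
  have h0 : 0 ≤ tailConst wide := tailConst_nonneg good_wide
  have h1 : tailConst wide ≤ 42 := by norm_num [tailConst, devConst, wide, geo200, Data.G, abs_of_neg]
  have h : tailMoment wide ≤ 5 / 100 := by
    norm_num [tailMoment, tailProd, wide, geo200, Finset.prod_range_succ]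
  have h2 : tailConst wide * tailMoment wide ≤ 42 * (5 / 100) :=
    (mul_le_mul_of_nonneg_left h h0).trans (mul_le_mul_of_nonneg_right h1 (by norm_num))
  norm_num [wide, geo200] at h2 ⊢
  linarith

end Vale.Agent.P237.Petty.Cor.Top
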